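import Crest.Agent.X212.Mv17.Cls

/-!
# X212 / Mv17, part Gl (helper17): classes and forms along necks

* `cyl_inj`, `pb_up`, `end_ex`, `end_uniq`, `pb_ext`, `pb_ag` : classes on cylinders and ends;
* `trunc_inj`, `trunc_surj` : truncation of an end;
* `glue_inj`, `glue_ex`, `cur_glue`, `ip_two` : two pieces;
* `rs_fun`, `rs_mt`, `exists_rs`, `rs_inj`, `eqv` : the same for `Gl`.
-/

set_option autoImplicit false
set_option linter.unusedSectionVars false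

open Set Filter Topology Function
open scoped ContDiff Manifold
open Crest.Agent.R208.F (Ext)
open Crest.Agent.X212.Bor5.T Crest.Agent.X212.Rfl19 Crest.Agent.X212.Nvg56
open Crest.Agent.X212.Lab56 (Cls mk_eq_iff ld_up up_add)
open Crest.Agent.X212.Cyl58 (TP TIso Up)
open Crest.Agent.X212.Dr59 (HZ Cl Cs Ex Mp pm psh ip)
open Crest.Agent.X212.Rod53 (ld_pd)
open Crest.Agent.X212.Int54 (Ori)
open Crest.Agent.X212.Orx52 (Pos)
open Crest.Agent.X212.Cyf70 (IC)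

noncomputable section

namespace Crest.Agent.X212.Mv17

section gen

variable {E : Type} [NormedAddCommGroup E] [NormedSpace ℝ E] [FiniteDimensional ℝ E]
  {H : Type} [TopologicalSpace H] {I : ModelWithCorners ℝ E H}
  {M : Type} [TopologicalSpace M] [ChartedSpace H M] [IsManifold I ∞ M]
  {E₁ : Type} [NormedAddCommGroup E₁] [NormedSpace ℝ E₁] [FiniteDimensional ℝ E₁]
  {H₁ : Type} [TopologicalSpace H₁] {I₁ : ModelWithCorners ℝ E₁ H₁}
  {M₁ : Type} [TopologicalSpace M₁] [ChartedSpace H₁ M₁] [IsManifold I₁ ∞ M₁]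
  {E₂ : Type} [NormedAddCommGroup E₂] [NormedSpace ℝ E₂] [FiniteDimensional ℝ E₂]
  {H₂ : Type} [TopologicalSpace H₂] {I₂ : ModelWithCorners ℝ E₂ H₂}
  {M₂ : Type} [TopologicalSpace M₂] [ChartedSpace H₂ M₂] [IsManifold I₂ ∞ M₂]
  {F : Type} [NormedAddCommGroup F] [NormedSpace ℝ F] [FiniteDimensional ℝ F]
  {G : Type} [TopologicalSpace G] {K : ModelWithCorners ℝ F G}
  {Y : Type} [TopologicalSpace Y] [ChartedSpace G Y] [IsManifold K ∞ Y]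
  {J J' : Set ℝ} {O : Set M} {d d' : Cls I (univ : Set M)} {d₁ : Cls I₁ (univ : Set M₁)}
  {d₂ : Cls I₂ (univ : Set M₂)}

/-! ### partial diffeomorphisms -/

theorem ev_r (φ : PartialDiffeomorph I₁ I M₁ M ∞) {x : M} (hx : x ∈ φ.target) : φ ∘ φ.symm =ᶠ[𝓝 x] id :=
  eventually_of_mem (φ.open_target.mem_nhds hx) fun _ hy => φ.right_inv hy

theorem pb_iff_res (φ : PartialDiffeomorph I₁ I M₁ M ∞) : Pb φ φ.source d d₁ ↔
    d.res (subset_univ φ.target) = d₁.pull (f := φ.symm) (fun _ hx => ld_pd φ.symm hx) (mapsTo_univ _ _) := by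
  refine ⟨fun ⟨a, e⟩ => ?_, fun e => ⟨fun _ hy => ld_pd φ hy, ?_⟩⟩
  · exact (pull_back d a (mapsTo_univ _ _) (fun _ hx => ld_pd φ.symm hx) (fun _ hx => φ.map_target hx) _
      fun _ hx => ev_r φ hx).symm.trans ((congrArg _ e).trans (res_pull d₁ _ _ _))
  · exact (res_pull d _ _ fun _ hy => φ.map_source hy).symm.trans ((congrArg _ e).trans
      (pull_back d₁ _ _ _ _ _ fun _ hx => ev_r φ.symm hx))

theorem pb_inv (φ : PartialDiffeomorph I₁ I M₁ M ∞) (h : Pb φ φ.source d d₁) : Pb φ.symm φ.target d₁ d :=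
  ⟨_, ((pb_iff_res φ).1 h).symm⟩

theorem res_of_pb (φ : PartialDiffeomorph I₁ I M₁ M ∞) (h : Pb φ φ.source d d₁) (h' : Pb φ φ.source d' d₁) :
    d.res (subset_univ φ.target) = d'.res (subset_univ φ.target) :=
  ((pb_iff_res φ).1 h).trans ((pb_iff_res φ).1 h').symm

theorem pb_of_res {f : M₁ → M} {W : Set M₁} (e : d.res (subset_univ O) = d'.res (subset_univ O))
    (hm : MapsTo f W O) (h : Pb f W d d₁) : Pb f W d' d₁ :=
  ⟨h.1, by rw [← h.2, ← res_pull d' (subset_univ O) h.1 hm, ← e, res_pull]⟩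

/-! ### cylinders -/

variable [T2Space Y] [SigmaCompactSpace Y] [K.Boundaryless] {s s' : Cls (IC K) (univ : Set (Y × ℝ))}
  {f g : Y × ℝ → M}

theorem cyl_inj' (hJ : IsOpen J) (hc : OrdConnected J) (hJ' : IsOpen J') (h0 : J' ⊆ J) (hn : J'.Nonempty)
    {c c' : Cls (IC K) (Prod.snd ⁻¹' J : Set (Y × ℝ))} (e : c.res (preimage_mono h0) = c'.res (preimage_mono h0)) :
    c = c' := by
  obtain ⟨a⟩ := c
  obtain ⟨b⟩ := c'
  exact Quot.sound ((Lab56.Eqv.cyl isOpen_univ hJ hc h0 hn (a.ok.mono fun _ h => h.2) (b.ok.mono fun _ h => h.2)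
    (((mk_eq_iff (hJ'.preimage continuous_snd)).1 e).mono fun _ h => h.2)).mono fun _ h => ⟨trivial, h⟩)

theorem cyl_inj (hJ : IsOpen J) (hn : J.Nonempty)
    (e : s.res (subset_univ (Prod.snd ⁻¹' J)) = s'.res (subset_univ _)) : s = s' :=
  cyl_inj' (J := univ) isOpen_univ ordConnected_univ hJ (subset_univ J) hn e

theorem end_ex (hJ : IsOpen J) (hc : OrdConnected J) (hn : J.Nonempty)
    (h : ∀ z ∈ Prod.snd ⁻¹' J, IsLocalDiffeomorphAt (IC K) I ∞ f z) (d : Cls I (univ : Set M)) :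
    ∃ s : Cls (IC K) (univ : Set (Y × ℝ)), Pb f (Prod.snd ⁻¹' J) d s :=
  (cyl_surj hJ hc hn (d.pull h (mapsTo_univ _ _))).imp fun _ e => ⟨h, e.symm⟩

theorem end_uniq (hJ : IsOpen J) (hn : J.Nonempty) (h : Pb f (Prod.snd ⁻¹' J) d s)
    (h' : Pb f (Prod.snd ⁻¹' J) d s') : s = s' := cyl_inj hJ hn (h.2.symm.trans h'.2)

theorem pb_ext (hJ : IsOpen J) (hc : OrdConnected J) (hJ' : IsOpen J') (h0 : J' ⊆ J) (hn : J'.Nonempty)
    (h : ∀ z ∈ Prod.snd ⁻¹' J, IsLocalDiffeomorphAt (IC K) I ∞ f z) (k : Pb f (Prod.snd ⁻¹' J') d s) :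
    Pb f (Prod.snd ⁻¹' J) d s := by
  obtain ⟨s', e⟩ := end_ex hJ hc (hn.mono h0) h d
  rwa [end_uniq hJ' hn k (pb_mono e (preimage_mono h0))]

/-- **classes are invariant under increasing reparametrisations of the cylinder** -/
theorem pb_up {φ : ℝ → ℝ} (hφ : Up φ univ) (s : Cls (IC K) (univ : Set (Y × ℝ))) :
    Pb (Prod.map id φ) univ s s := by
  have key : ∀ {φ ψ : ℝ → ℝ} {J : Set ℝ}, Up ψ univ → IsOpen J → J.Nonempty → EqOn ψ φ J →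
      Pb (Prod.map id φ) univ s s → Pb (Prod.map id ψ) univ s s := fun h hJ hn e k =>
    pb_ext (J := univ) isOpen_univ ordConnected_univ hJ (subset_univ _) hn (fun z _ => ld_up h z)
      (pb_congr (pb_mono k (subset_univ _)) fun _ hz =>
        eventually_of_mem ((hJ.preimage continuous_snd).mem_nhds hz) fun _ hy => Prod.ext rfl (e hy))
  have u1 : Up id univ := fun _ _ => ⟨contDiffAt_id, by simp⟩
  obtain ⟨l, l1, l2, l3, -⟩ := Cyl58.exists_up_univ (a := min 0 (φ 0) - 1) (b := 0)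
    (by linarith [min_le_left 0 (φ 0)]) u1 univ_mem (subset_univ _) hφ univ_mem (subset_univ _)
    (by simp only [id]; linarith [min_le_right 0 (φ 0)])
  exact key hφ isOpen_Ioi nonempty_Ioi (fun t ht => (l3 t (le_of_lt ht)).symm)
    (key l1 isOpen_Iio nonempty_Iio (fun t ht => l2 t (le_of_lt ht)) pb_id)

theorem pb_sh (δ : ℝ) (e : ∀ t ∈ J, ∀ y, f (y, t) = g (y, t + δ)) (hJ : IsOpen J) (hm : ∀ t ∈ J, t + δ ∈ J')
    (k : Pb g (Prod.snd ⁻¹' J') d s) : Pb f (Prod.snd ⁻¹' J) d s :=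
  pb_congr (pb_comp k (pb_mono (pb_up (up_add δ) s) (subset_univ _)) fun z hz => hm z.2 hz) fun _ hz =>
    eventually_of_mem ((hJ.preimage continuous_snd).mem_nhds hz) fun z hz => e z.2 hz z.1

/-- the sets of the filter have interior points -/
def Fat (l : Filter ℝ) : Prop := ∀ A ∈ l, (interior A).Nonempty

theorem fat_bot : Fat atBot := fun _ h =>
  let ⟨a, k⟩ := mem_atBot_sets.1 h
  ⟨a - 1, mem_interior.2 ⟨Iio a, fun t ht => k t (le_of_lt ht), isOpen_Iio, by simp⟩⟩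

theorem fat_top : Fat atTop := fun _ h =>
  let ⟨a, k⟩ := mem_atTop_sets.1 h
  ⟨a + 1, mem_interior.2 ⟨Ioi a, fun t ht => k t (le_of_lt ht), isOpen_Ioi, by simp⟩⟩

/-- ends that agree up to a translation carry the same class -/
theorem pb_ag {l : Filter ℝ} (hl : Nd l) (hf : Fat l) (a : Ag l f g) (hJ : IsOpen J) (hc : OrdConnected J)
    (h1 : J ∈ l) (h2 : J' ∈ l) (h : ∀ z ∈ Prod.snd ⁻¹' J, IsLocalDiffeomorphAt (IC K) I ∞ f z)
    (k : Pb g (Prod.snd ⁻¹' J') d s) : Pb f (Prod.snd ⁻¹' J) d s := by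
  obtain ⟨δ, a⟩ := a
  have n := hf _ (inter_mem h1 (inter_mem a (hl δ h2)))
  exact pb_ext hJ hc isOpen_interior (interior_subset.trans inter_subset_left) n h
    (pb_sh δ (fun _ ht => (interior_subset ht).2.1) isOpen_interior (fun _ ht => (interior_subset ht).2.2) k)

/-! ### truncation -/

variable [T2Space M] [SigmaCompactSpace M] [I.Boundaryless]

section trunc

variable (φ : PartialDiffeomorph (IC K) I (Y × ℝ) M ∞) (src : φ.source = Prod.snd ⁻¹' J)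
  (hp : ∀ z ∈ φ.source, φ z ∈ O ↔ z.2 ∈ J') (h0 : J' ⊆ J)
include src hp h0

theorem spl_end (hO : IsOpen O) (hJ' : IsOpen J') (hc : OrdConnected J') (hn : J'.Nonempty) :
    Spl I O φ.target := fun c k => by
  obtain ⟨t, ht⟩ := hn
  have m : ∀ z : Y × ℝ, z.2 ∈ J' → z ∈ φ.source := fun z hz => src ▸ h0 hz
  have k1 : Ut (IC K) (c ∘ φ) (univ ×ˢ J') := k.comp (fun z hz => (ld_pd φ (m z hz.2)).contMDiffAt)
    fun z hz => ⟨(hp z (m z hz.2)).2 hz.2, φ.map_source (m z hz.2)⟩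
  have s1 := fun x (hx : x ∈ φ.target) => (ld_pd φ.symm hx).contMDiffAt
  have k2 : Ut I ((c ∘ φ) ∘ fun x => ((φ.symm x).1, t)) φ.target := k1.comp
    (fun x hx => (contMDiffAt_fst.comp x (s1 x hx)).prodMk contMDiffAt_const) fun _ _ => ⟨trivial, ht⟩
  have k3 := (lg_slice hJ' hc ht k1).comp (f := φ.symm) (W := O ∩ φ.target) (fun x hx => s1 x hx.2)
    fun x hx => ⟨trivial, (hp _ (φ.map_target hx.2)).1 ((φ.right_inv hx.2).symm ▸ hx.1)⟩
  exact ((k3.sq hO φ.open_target).mul (.right k2)).congr fun x hx => by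
    exact (congrArg c (φ.right_inv hx.2).symm).trans (inv_mul_cancel_right₀ (k2.ne hx.2) _).symm

/-- **a class is determined off an end** -/
theorem trunc_inj (hO : IsOpen O) (hu : O ∪ φ.target = univ) (hJ : IsOpen J) (hc : OrdConnected J)
    (hJ' : IsOpen J') (hc' : OrdConnected J') (hn : J'.Nonempty)
    (e : d.res (subset_univ O) = d'.res (subset_univ O)) : d = d' := by
  have l := fun z (hz : z ∈ Prod.snd ⁻¹' J) => ld_pd φ (src.ge hz)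
  obtain ⟨s, k⟩ := end_ex hJ hc (hn.mono h0) l d
  have k' := pb_ext hJ hc hJ' h0 hn l (pb_of_res e (fun z hz => (hp z (src.ge (h0 hz))).2 hz)
    (pb_mono k (preimage_mono h0)))
  exact cls_inj hO φ.open_target hu.ge (spl_end φ src hp h0 hO hJ' hc' hn) _ _ e
    (res_of_pb φ (src ▸ k) (src ▸ k'))

/-- **classes extend over an end** -/
theorem trunc_surj (hO : IsOpen O) (hu : O ∪ φ.target = univ) (hJ' : IsOpen J') (hc' : OrdConnected J')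
    (hn : J'.Nonempty) (c : Cls I O) : ∃ d : Cls I (univ : Set M), d.res (subset_univ O) = c := by
  have hf := fun z (hz : z ∈ Prod.snd ⁻¹' J') => ld_pd φ (src.ge (h0 hz))
  have hm : MapsTo φ (Prod.snd ⁻¹' J') O := fun z hz => (hp z (src.ge (h0 hz))).2 hz
  obtain ⟨t, ht⟩ := hn
  obtain ⟨s, e⟩ := cyl_surj hJ' hc' ⟨t, ht⟩ (c.pull hf hm)
  rcases isEmpty_or_nonempty M with _ | _
  · obtain ⟨a⟩ := c
    have : O = univ := Subsingleton.elim _ _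
    subst this
    exact ⟨Quot.mk _ a, rfl⟩
  refine (cls_glue hO φ.open_target hu c
    (s.pull (fun _ hx => ld_pd φ.symm hx) (mapsTo_univ _ _)) ?_).imp fun _ h => h.1
  refine (pull_back (U := O ∩ φ.target) c hf hm (fun _ hx => ld_pd φ.symm hx.2) (fun x hx => (hp _ (φ.map_target hx.2)).1
    ((φ.right_inv hx.2).symm ▸ hx.1)) _ fun _ hx => ev_r φ hx.2).symm.trans ?_
  exact (congrArg _ e.symm).trans ((res_pull s _ _ _).trans (pull_res s _ _ _).symm)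

end trunc

/-! ### two pieces -/

section two

variable (l : PartialDiffeomorph I₁ I M₁ M ∞) (r : PartialDiffeomorph I₂ I M₂ M ∞)
  (hc : l.target ∪ r.target = univ)
include hc

theorem glue_inj (h : Spl I l.target r.target) (a : Pb l l.source d d₁) (a' : Pb l l.source d' d₁)
    (b : Pb r r.source d d₂) (b' : Pb r r.source d' d₂) : d = d' :=
  cls_inj l.open_target r.open_target hc.ge h _ _ (res_of_pb l a a') (res_of_pb r b b')

/-- classes that agree on the neck `n` glue -/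
theorem glue_ex [Nonempty M] {Z : Type} [TopologicalSpace Z] [ChartedSpace G Z] [IsManifold K ∞ Z]
    (n : PartialDiffeomorph K I Z M ∞) (hn : n.target = l.target ∩ r.target) {s : Cls K (univ : Set Z)}
    (a : Pb (l.symm ∘ n) n.source d₁ s) (b : Pb (r.symm ∘ n) n.source d₂ s) :
    ∃ d : Cls I (univ : Set M), Pb l l.source d d₁ ∧ Pb r r.source d d₂ := by
  have m := fun x (hx : x ∈ l.target ∩ r.target) => n.map_target (hn.ge hx)
  have ld := fun x (hx : x ∈ l.target ∩ r.target) => ld_pd n.symm (hn.ge hx)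
  refine (cls_glue l.open_target r.open_target hc (d₁.pull (fun _ hx => ld_pd l.symm hx) (mapsTo_univ _ _))
    (d₂.pull (fun _ hx => ld_pd r.symm hx) (mapsTo_univ _ _)) ?_).imp fun _ h =>
      ⟨(pb_iff_res l).2 h.1, (pb_iff_res r).2 h.2⟩
  have e := congrArg (·.pull (f := n.symm) ld m) (a.2.trans b.2.symm)
  have e' := (d₁.pull_pull _ _ ld m).symm.trans (e.trans (d₂.pull_pull _ _ ld m))
  exact (pull_res d₁ _ _ _).trans ((d₁.pull_congr _ _ _ _ fun x hx => (ev_r n (hn.ge hx)).fun_comp l.symm).trans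
    (e'.trans ((d₂.pull_congr (f := r.symm) (fun _ hx => ld_pd r.symm hx.2) (mapsTo_univ _ _) _ _
      fun x hx => (ev_r n (hn.ge hx)).fun_comp r.symm).symm.trans (pull_res d₂ _ _ inter_subset_right).symm)))

omit hc [T2Space M] [SigmaCompactSpace M] in
theorem cur_of_ex {c c' : M → Ext E} (h : Cur d c) (h' : Cl I 2 univ c') (e : Ex I univ (c' - c)) : Cur d c' := by
  obtain ⟨b, h1, h2, h3⟩ := e.deg (k := 1) (h'.dg.sub (cur_cl h).dg)
  rw [show c' = c + Dr59.dM I b from funext fun x => by rw [Pi.add_apply, h3 x trivial, Pi.sub_apply]; abel]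
  exact cur_add h h1 h2

omit hc [T2Space M] [SigmaCompactSpace M] in
theorem ex_tgt [T2Space M₁] [SigmaCompactSpace M₁] [I₁.Boundaryless] {c c' : M → Ext E} {c₁ : M₁ → Ext E₁}
    (a : Pb l l.source d d₁) (k : Cur d c) (k₁ : Cur d₁ c₁) (e : Ex I₁ l.source (pm I₁ I l c' - c₁)) :
    Ex I l.target (c' - c) :=
  l.image_source_eq_target ▸ Dr59.ex_pd l l.open_source subset_rfl
    ((e.trans (cur_pb l.open_source a k₁ k).symm).congr fun y _ => by rw [Dr59.pm_sub])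

/-- **curvature forms glue along a neck with `b₁ = 0`** -/
theorem cur_glue [T2Space M₁] [SigmaCompactSpace M₁] [I₁.Boundaryless] [T2Space M₂] [SigmaCompactSpace M₂]
    [I₂.Boundaryless] (h : HZ I 1 (l.target ∩ r.target)) (a : Pb l l.source d d₁) (b : Pb r r.source d d₂)
    {c : M → Ext E} {c₁ : M₁ → Ext E₁} {c₂ : M₂ → Ext E₂} (k₁ : Cur d₁ c₁) (k₂ : Cur d₂ c₂) (k : Cl I 2 univ c)
    (e₁ : Ex I₁ l.source (pm I₁ I l c - c₁)) (e₂ : Ex I₂ r.source (pm I₂ I r c - c₂)) : Cur d c := by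
  obtain ⟨c₀, k₀⟩ := exists_cur d
  exact cur_of_ex k₀ k (hc ▸ Dr59.ex_union l.open_target r.open_target h
    ((k.sub (cur_cl k₀)).mono (subset_univ _)) (ex_tgt l a k₀ k₁ e₁) (ex_tgt r b k₀ k₂ e₂))

omit hc [SigmaCompactSpace M] in
theorem pm_two [I₁.Boundaryless] [I₂.Boundaryless] {S₂ : Set M₂} {a₁ : M₁ → Ext E₁} {a₂ : M₂ → Ext E₂} (h : ∀ y, y ∉ S₂ → a₂ y = 0)
    (dj : Disjoint l.target (r '' S₂)) {y : M₁} (hy : y ∈ l.source) :
    pm I₁ I l (psh l a₁ + psh r a₂) y = a₁ y := by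
  rw [Dr59.pm_congr_right (b := psh l a₁) (by
    rw [Pi.add_apply, Dr59.psh_eq_zero r (fun z _ => h z) (disjoint_left.1 dj (l.map_source hy)), add_zero]),
    Dr59.pm_psh l hy]

/-- curvature forms with compact support off the neck add up -/
theorem cur_two [T2Space M₁] [SigmaCompactSpace M₁] [I₁.Boundaryless] [T2Space M₂] [SigmaCompactSpace M₂]
    [I₂.Boundaryless] (h : HZ I 1 (l.target ∩ r.target)) (a : Pb l l.source d d₁) (b : Pb r r.source d d₂)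
    {S₁ : Set M₁} {S₂ : Set M₂} {c₁ : M₁ → Ext E₁} {c₂ : M₂ → Ext E₂} (k₁ : Cur d₁ c₁) (k₂ : Cur d₂ c₂)
    (s₁ : Cs I₁ 2 S₁ c₁) (s₂ : Cs I₂ 2 S₂ c₂) (h₁ : S₁ ⊆ l.source) (h₂ : S₂ ⊆ r.source)
    (j₁ : Disjoint r.target (l '' S₁)) (j₂ : Disjoint l.target (r '' S₂)) : Cur d (psh l c₁ + psh r c₂) :=
  cur_glue l r hc h a b k₁ k₂ ((s₁.psh l h₁).cl.add (s₂.psh r h₂).cl)
    (Dr59.ex_of_zero fun y hy => by rw [Pi.sub_apply, pm_two l r (fun _ => s₂.eq_zero) j₂ hy, sub_self])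
    (Dr59.ex_of_zero fun y hy => by rw [Pi.sub_apply, add_comm, pm_two r l (fun _ => s₁.eq_zero) j₁ hy, sub_self])

omit hc [SigmaCompactSpace M] in
/-- **the pairing is additive** -/
theorem ip_two [MeasurableSpace E] [BorelSpace E] [MeasurableSpace M] [BorelSpace M] [SecondCountableTopology M]
    [MeasurableSpace E₁] [BorelSpace E₁] [MeasurableSpace M₁] [BorelSpace M₁] [SecondCountableTopology M₁]
    [T2Space M₁] [I₁.Boundaryless] [MeasurableSpace E₂] [BorelSpace E₂] [MeasurableSpace M₂] [BorelSpace M₂]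
    [SecondCountableTopology M₂] [T2Space M₂] [I₂.Boundaryless] {o : M → Ext E} {o₁ : M₁ → Ext E₁}
    {o₂ : M₂ → Ext E₂} (ho : Ori I o) (ho₁ : Ori I₁ o₁) (ho₂ : Ori I₂ o₂) (p₁ : Pos I₁ I l l.source o₁ o)
    (p₂ : Pos I₂ I r r.source o₂ o) {k : ℕ} {S₁ : Set M₁} {S₂ : Set M₂} {e₁ : M₁ → Ext E₁} {e₂ : M₂ → Ext E₂}
    (s₁ : Cs I₁ k S₁ e₁) (s₂ : Cs I₂ k S₂ e₂) (h₁ : S₁ ⊆ l.source) (h₂ : S₂ ⊆ r.source) {c : M → Ext E}
    (hc : Dr59.Sm I univ c) :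
    ip I o c (psh l e₁ + psh r e₂) = ip I₁ o₁ (pm I₁ I l c) e₁ + ip I₂ o₂ (pm I₂ I r c) e₂ := by
  rw [Dr59.ip_add_right ((s₁.psh l h₁).mono (subset_univ _)) ((s₂.psh r h₂).mono (subset_univ _)) ho hc,
    s₁.ip_psh l h₁ ho ho₁ (Int54.SameOn.symm (p₁.mono h₁)), s₂.ip_psh r h₂ ho ho₂ (Int54.SameOn.symm (p₂.mono h₂))]

end two

end gen

/-! ### ends with a time function -/

section tiso

variable {V : Type} [NormedAddCommGroup V] [NormedSpace ℝ V] [FiniteDimensional ℝ V] {X : TP V} {B : O3}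
  {J J' : Set ℝ} {d d' : Cls X.P.I (univ : Set X.P.M)}

theorem hz_nk {n : ℕ} (h : HZ B.Y.I n (univ : Set B.Y.M)) (k : TIso B.cyl X J) (hJ : IsOpen J') (hc : OrdConnected J')
    (h0 : J' ⊆ J) : HZ X.P.I n (X.τ ⁻¹' J') := by
  rw [← img k h0, Dr59.hz_pd k.φ (hJ.preimage B.cyl.cont) fun _ hz => k.mem_src (h0 hz)]
  have := h.prod_convex isOpen_univ hJ hc.convex
  rwa [univ_prod] at this

theorem tiso_ex (k : TIso B.cyl X J) (hJ : IsOpen J) (hc : OrdConnected J) (hn : J.Nonempty)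
    (d : Cls X.P.I (univ : Set X.P.M)) : ∃ s : B.L, Pb k (B.cyl.τ ⁻¹' J) d s :=
  end_ex (K := B.Y.I) (Y := B.Y.M) hJ hc hn (fun _ hz => k.ld hz) d

theorem tiso_inj (k : TIso B.cyl X J) (hJ : IsOpen J) (hc : OrdConnected J) (hJ' : IsOpen J')
    (hc' : OrdConnected (J' ∩ J)) (hn : (J' ∩ J).Nonempty) (hu : J' ∪ J = univ)
    (e : d.res (subset_univ (X.τ ⁻¹' J')) = d'.res (subset_univ _)) : d = d' :=
  have := sigT X
  trunc_inj (K := B.Y.I) (Y := B.Y.M) (J' := J' ∩ J) k.φ k.src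
    (fun z hz => by
      have h : z.2 ∈ J := k.src.le hz
      show X.τ (k z) ∈ J' ↔ _
      rw [k.tm z h]; exact ⟨fun a => ⟨a, h⟩, fun a => a.1⟩)
    inter_subset_right (hJ'.preimage X.cont) (by rw [k.tgt, ← preimage_union, hu, preimage_univ]) hJ hc
    (hJ'.inter hJ) hc' hn e

end tiso

section cob

variable {A B : Q3} (C : Cob A B) {d : C.L}

theorem in_ex (d : C.L) : ∃ s, C.In d s := tiso_ex C.ki isOpen_Iio ordConnected_Iio nonempty_Iio d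

theorem out_ex (d : C.L) : ∃ t, C.Out d t := tiso_ex C.ko isOpen_Ioi ordConnected_Ioi nonempty_Ioi d

theorem in_uniq {s s' : A.L} (h : C.In d s) (h' : C.In d s') : s = s' :=
  end_uniq (K := A.Y.I) (Y := A.Y.M) isOpen_Iio nonempty_Iio h h'

theorem out_uniq {t t' : B.L} (h : C.Out d t) (h' : C.Out d t') : t = t' :=
  end_uniq (K := B.Y.I) (Y := B.Y.M) isOpen_Ioi nonempty_Ioi h h'

end cob

/-! ### gluing data -/

section gl

variable {B : O3} {W₁ W₂ W : W4} {b a : ℝ} {ko : TIso B.cyl W₁.X (Ioi b)} {ki : TIso B.cyl W₂.X (Iio a)}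
  (g : Gl W₁ W₂ W ko ki) {d d' : W.L} {d₁ d₁' : W₁.L} {d₂ d₂' : W₂.L} {s : B.L}

variable (ko ki) in
/-- the two classes agree on the neck -/
def Mt (d₁ : W₁.L) (d₂ : W₂.L) : Prop :=
  ∃ s : B.L, Pb ko (B.cyl.τ ⁻¹' Ioi b) d₁ s ∧ Pb ki (B.cyl.τ ⁻¹' Iio a) d₂ s

/-- the left piece -/
def pl : PartialDiffeomorph W₁.X.P.I W.X.P.I W₁.M W.M ∞ := g.l.φ

/-- the right piece -/
def pr : PartialDiffeomorph W₂.X.P.I W.X.P.I W₂.M W.M ∞ := g.r.φ

theorem pl_src : (pl g).source = {x | W₁.X.τ x + g.δ₁ < g.β} := g.l.src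

theorem pr_src : (pr g).source = {x | g.α < W₂.X.τ x + g.δ₂} := g.r.src

theorem pl_tgt : (pl g).target = W.X.τ ⁻¹' Iio g.β := g.l.tgt

theorem pr_tgt : (pr g).target = W.X.τ ⁻¹' Ioi g.α := g.r.tgt

theorem rs_iff : g.Rs d d₁ d₂ ↔ Pb (pl g) (pl g).source d d₁ ∧ Pb (pr g) (pr g).source d d₂ := by
  rw [pl_src, pr_src]; rfl

theorem cov : (pl g).target ∪ (pr g).target = univ := by
  rw [pl_tgt, pr_tgt, ← preimage_union, Iio_union_Ioi_of_lt g.lt, preimage_univ]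

theorem ovl : (pl g).target ∩ (pr g).target = W.X.τ ⁻¹' Ioo g.α g.β := by
  rw [pl_tgt, pr_tgt, ← preimage_inter, Iio_inter_Ioi]

theorem sub₁ : Ioo g.α g.β ⊆ {t | t - g.δ₁ ∈ Ioi b} := fun t ht =>
  show b < t - g.δ₁ by linarith [g.hb, ht.1]

theorem sub₂ : Ioo g.α g.β ⊆ {t | t - g.δ₂ ∈ Iio a} := fun t ht =>
  show t - g.δ₂ < a by linarith [g.ha, ht.2]

/-- the neck -/
def nk : TIso B.cyl W.X (Ioo g.α g.β) :=
  ((ko.shiftC isOpen_Ioi g.δ₁).restr isOpen_Ioo (sub₁ g)).trans (g.l.restr isOpen_Ioo Ioo_subset_Iio_self)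

theorem nk_l (z : B.Y.M × ℝ) : nk g z = g.fl (ko (z.1, z.2 - g.δ₁)) := rfl

theorem nk_r {z : B.Y.M × ℝ} (hz : z.2 ∈ Ioo g.α g.β) : nk g z = g.fr (ki (z.1, z.2 - g.δ₂)) := g.ov z.1 z.2 hz

theorem mem_l {z : B.Y.M × ℝ} (hz : z.2 ∈ Ioo g.α g.β) : W₁.X.τ (ko (z.1, z.2 - g.δ₁)) + g.δ₁ < g.β := by
  rw [ko.tm (z.1, z.2 - g.δ₁) (sub₁ g hz)]; exact (sub_add_cancel _ _).trans_lt hz.2

theorem mem_r {z : B.Y.M × ℝ} (hz : z.2 ∈ Ioo g.α g.β) : g.α < W₂.X.τ (ki (z.1, z.2 - g.δ₂)) + g.δ₂ := by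
  rw [ki.tm (z.1, z.2 - g.δ₂) (sub₂ g hz)]; exact hz.1.trans_eq (sub_add_cancel _ _).symm

theorem hz_ovl {n : ℕ} (h : HZ B.Y.I n (univ : Set B.Y.M)) : HZ W.X.P.I n ((pl g).target ∩ (pr g).target) :=
  ovl g ▸ hz_nk h (nk g) isOpen_Ioo ordConnected_Ioo subset_rfl

theorem sh_l (k : Pb ko (B.cyl.τ ⁻¹' Ioi b) d₁ s) :
    Pb (N := B.cyl.P.M) (fun z => ko (z.1, z.2 - g.δ₁)) (B.cyl.τ ⁻¹' Ioo g.α g.β) d₁ s :=
  pb_sh (K := B.Y.I) (Y := B.Y.M) (-g.δ₁) (fun _ _ _ => rfl) isOpen_Ioo (sub₁ g) k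

theorem sh_r (k : Pb ki (B.cyl.τ ⁻¹' Iio a) d₂ s) :
    Pb (N := B.cyl.P.M) (fun z => ki (z.1, z.2 - g.δ₂)) (B.cyl.τ ⁻¹' Ioo g.α g.β) d₂ s :=
  pb_sh (K := B.Y.I) (Y := B.Y.M) (-g.δ₂) (fun _ _ _ => rfl) isOpen_Ioo (sub₂ g) k

theorem nk_of_l (h : g.Rs d d₁ d₂) (k : Pb ko (B.cyl.τ ⁻¹' Ioi b) d₁ s) :
    Pb (nk g) (B.cyl.τ ⁻¹' Ioo g.α g.β) d s :=
  pb_comp (f := g.fl) h.1 (sh_l g k) fun _ hz => mem_l g hz

theorem nk_of_r (h : g.Rs d d₁ d₂) (k : Pb ki (B.cyl.τ ⁻¹' Iio a) d₂ s) :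
    Pb (nk g) (B.cyl.τ ⁻¹' Ioo g.α g.β) d s :=
  pb_congr (pb_comp h.2 (sh_r g k) fun _ hz => mem_r g hz) fun _ hz =>
    eventually_of_mem ((isOpen_Ioo.preimage B.cyl.cont).mem_nhds hz) fun _ hy => nk_r g hy

theorem rs_ex (d : W.L) : ∃ d₁ d₂, g.Rs d d₁ d₂ := (glStmt _ _ _ _ _ _ _ _ g).1 d

/-- the restrictions agree on the neck -/
theorem rs_mt (h : g.Rs d d₁ d₂) : Mt ko ki d₁ d₂ := by
  obtain ⟨s, k⟩ := tiso_ex ko isOpen_Ioi ordConnected_Ioi nonempty_Ioi d₁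
  obtain ⟨s', k'⟩ := tiso_ex ki isOpen_Iio ordConnected_Iio nonempty_Iio d₂
  exact ⟨s, k, end_uniq (K := B.Y.I) (Y := B.Y.M) isOpen_Ioo (nonempty_Ioo.2 g.lt) (nk_of_r g h k')
    (nk_of_l g h k) ▸ k'⟩

/-- the restrictions are unique -/
theorem rs_fun (h : g.Rs d d₁ d₂) (h' : g.Rs d d₁' d₂') : d₁ = d₁' ∧ d₂ = d₂' := by
  have lt := g.lt
  have hb := g.hb
  have ha := g.ha
  exact ⟨tiso_inj (J' := {t | t + g.δ₁ < g.β}) ko isOpen_Ioi ordConnected_Ioi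
      (isOpen_lt (by fun_prop) continuous_const)
      (OrdConnected.inter ⟨fun _ _ _ h _ k => (add_le_add_left k.2 _).trans_lt h⟩ ordConnected_Ioi)
      ⟨(g.α + g.β) / 2 - g.δ₁, by simp only [mem_ofPred_eq]; linarith, by simp only [mem_Ioi]; linarith⟩
      (eq_univ_of_forall fun t => (lt_or_ge b t).elim .inr fun k => .inl (by simp only [mem_ofPred_eq]; linarith))
      (h.1.2.symm.trans h'.1.2),
    tiso_inj (J' := {t | g.α < t + g.δ₂}) ki isOpen_Iio ordConnected_Iio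
      (isOpen_lt continuous_const (by fun_prop))
      (OrdConnected.inter ⟨fun _ h _ _ _ k => h.trans_le (add_le_add_left k.1 _)⟩ ordConnected_Iio)
      ⟨(g.α + g.β) / 2 - g.δ₂, by simp only [mem_ofPred_eq]; linarith, by simp only [mem_Iio]; linarith⟩
      (eq_univ_of_forall fun t => (lt_or_ge t a).elim .inr fun k => .inl (by simp only [mem_ofPred_eq]; linarith))
      (h.2.2.symm.trans h'.2.2)⟩

/-- **matching classes glue** -/
theorem exists_rs (h : Mt ko ki d₁ d₂) : ∃ d, g.Rs d d₁ d₂ := by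
  obtain ⟨s, k₁, k₂⟩ := h
  have := sigT W.X
  have o := fun z (hz : z ∈ B.cyl.τ ⁻¹' Ioo g.α g.β) => (isOpen_Ioo.preimage B.cyl.cont).mem_nhds hz
  exact (glue_ex (pl g) (pr g) (cov g) (nk g).φ ((nk g).tgt.trans (ovl g).symm) (s := s)
    ((nk g).src ▸ pb_congr (sh_l g k₁) fun z hz => eventually_of_mem (o z hz) fun _ hy => g.l.symm_apply (mem_l g hy))
    ((nk g).src ▸ pb_congr (sh_r g k₂) fun z hz => eventually_of_mem (o z hz) fun _ hy =>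
      (congrArg g.r.symm (nk_r g hy)).trans (g.r.symm_apply (mem_r g hy)))).imp fun _ => (rs_iff g).2

theorem rs_inj' (h : Spl W.X.P.I (pl g).target (pr g).target) (k : g.Rs d d₁ d₂) (k' : g.Rs d' d₁ d₂) : d = d' :=
  have := sigT W.X
  glue_inj _ _ (cov g) h ((rs_iff g).1 k).1 ((rs_iff g).1 k').1 ((rs_iff g).1 k).2 ((rs_iff g).1 k').2

/-- **along a neck with `b₁ = 0` the glued class is unique** -/
theorem rs_inj (h : HZ B.Y.I 1 (univ : Set B.Y.M)) (k : g.Rs d d₁ d₂) (k' : g.Rs d' d₁ d₂) : d = d' :=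
  have := sigT W.X
  rs_inj' g (spl_of_hz (pl g).open_target (pr g).open_target (hz_ovl g h)) k k'

/-- **MV** : classes of the union are matching pairs -/
def eqv (h : HZ B.Y.I 1 (univ : Set B.Y.M)) : W.L ≃ {p : W₁.L × W₂.L // Mt ko ki p.1 p.2} :=
  .ofBijective (fun d => ⟨(_, _), rs_mt g (rs_ex g d).choose_spec.choose_spec⟩)
    ⟨fun d d' e => rs_inj g h (rs_ex g d).choose_spec.choose_spec (by
      have k : ∀ p p' : W₁.L × W₂.L, p = p' → g.Rs d' p'.1 p'.2 → g.Rs d' p.1 p.2 := fun _ _ e => e ▸ id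
      exact k _ _ (congrArg Subtype.val e) (rs_ex g d').choose_spec.choose_spec),
    fun p => (exists_rs g p.2).imp fun d k => Subtype.ext (Prod.ext_iff.2
      (rs_fun g (rs_ex g d).choose_spec.choose_spec k))⟩

theorem rs_eqv (h : HZ B.Y.I 1 (univ : Set B.Y.M)) (d : W.L) : g.Rs d (eqv g h d).1.1 (eqv g h d).1.2 :=
  (rs_ex g d).choose_spec.choose_spec

theorem eqv_iff (h : HZ B.Y.I 1 (univ : Set B.Y.M)) : (eqv g h d).1 = (d₁, d₂) ↔ g.Rs d d₁ d₂ :=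
  ⟨fun e => by simpa only [e] using rs_eqv g h d, fun k => Prod.ext_iff.2 (rs_fun g (rs_eqv g h d) k)⟩

/-- the class on another end of the left piece -/
theorem rs_left {A : O3} {l : Filter ℝ} (hl : Nd l) (hf : Fat l) {J J' : Set ℝ} (k₁ : TIso A.cyl W₁.X J)
    (k : TIso A.cyl W.X J') (ag : Ag l (g.fl ∘ k₁) k) (hJ' : IsOpen J') (hc : OrdConnected J') (h1 : J ∈ l)
    (h2 : J' ∈ l) (h3 : {t | t + g.δ₁ < g.β} ∈ l) (h : g.Rs d d₁ d₂) {s : A.L}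
    (e : Pb k₁ (A.cyl.τ ⁻¹' J) d₁ s) : Pb k (A.cyl.τ ⁻¹' J') d s :=
  pb_ag (K := A.Y.I) (Y := A.Y.M) hl hf (ag_symm hl ag) hJ' hc h2 (inter_mem h1 h3) (fun _ hz => k.ld hz)
    (pb_comp h.1 (pb_mono e (preimage_mono inter_subset_left)) fun z hz => by
      show W₁.X.τ (k₁ z) + g.δ₁ < g.β
      rw [k₁.tm z hz.1]; exact hz.2)

/-- the class on another end of the right piece -/
theorem rs_right {A : O3} {l : Filter ℝ} (hl : Nd l) (hf : Fat l) {J J' : Set ℝ} (k₂ : TIso A.cyl W₂.X J)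
    (k : TIso A.cyl W.X J') (ag : Ag l (g.fr ∘ k₂) k) (hJ' : IsOpen J') (hc : OrdConnected J') (h1 : J ∈ l)
    (h2 : J' ∈ l) (h3 : {t | g.α < t + g.δ₂} ∈ l) (h : g.Rs d d₁ d₂) {s : A.L}
    (e : Pb k₂ (A.cyl.τ ⁻¹' J) d₂ s) : Pb k (A.cyl.τ ⁻¹' J') d s :=
  pb_ag (K := A.Y.I) (Y := A.Y.M) hl hf (ag_symm hl ag) hJ' hc h2 (inter_mem h1 h3) (fun _ hz => k.ld hz)
    (pb_comp h.2 (pb_mono e (preimage_mono inter_subset_left)) fun z hz => by
      show g.α < W₂.X.τ (k₂ z) + g.δ₂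
      rw [k₂.tm z hz.1]; exact hz.2)

/-- the sum of two forms of the pieces -/
def sum (e₁ : W₁.Fm) (e₂ : W₂.Fm) : W.Fm := psh (pl g) e₁ + psh (pr g) e₂

variable {e₁ c₁ : W₁.Fm} {e₂ c₂ : W₂.Fm} {n : ℕ}

theorem sub_l : {x | W₁.X.τ x + g.δ₁ ≤ g.α} ⊆ (pl g).source := fun _ hx => g.l.mem_src (hx.trans_lt g.lt)

theorem sub_r : {x | g.β ≤ W₂.X.τ x + g.δ₂} ⊆ (pr g).source := fun _ hx => g.r.mem_src (g.lt.trans_le hx)

theorem dj_l : Disjoint (pr g).target ((pl g) '' {x | W₁.X.τ x + g.δ₁ ≤ g.α}) :=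
  disjoint_right.2 (by
    rintro _ ⟨x, hx, rfl⟩ k
    exact (g.r.tgt.le k).not_ge ((g.l.tm x (hx.trans_lt g.lt)).trans_le hx))

theorem dj_r : Disjoint (pl g).target ((pr g) '' {x | g.β ≤ W₂.X.τ x + g.δ₂}) :=
  disjoint_right.2 (by
    rintro _ ⟨x, hx, rfl⟩ k
    exact (g.l.tgt.le k).not_ge (hx.trans_eq (g.r.tm x (g.lt.trans_le hx)).symm))

theorem cs_sum (h₁ : Cs W₁.X.P.I n {x | W₁.X.τ x + g.δ₁ ≤ g.α} e₁) (h₂ : Cs W₂.X.P.I n {x | g.β ≤ W₂.X.τ x + g.δ₂} e₂) :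
    Cs W.X.P.I n univ (sum g e₁ e₂) :=
  ((h₁.psh _ (sub_l g)).mono (subset_univ _)).add ((h₂.psh _ (sub_r g)).mono (subset_univ _))

theorem pm_sum_l (h₂ : Cs W₂.X.P.I n {x | g.β ≤ W₂.X.τ x + g.δ₂} e₂) {x : W₁.M} (hx : W₁.X.τ x + g.δ₁ < g.β) :
    pm W₁.X.P.I W.X.P.I g.fl (sum g e₁ e₂) x = e₁ x :=
  pm_two (pl g) (pr g) (fun _ => h₂.eq_zero) (dj_r g) (g.l.mem_src hx)

theorem pm_sum_r (h₁ : Cs W₁.X.P.I n {x | W₁.X.τ x + g.δ₁ ≤ g.α} e₁) {x : W₂.M} (hx : g.α < W₂.X.τ x + g.δ₂) :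
    pm W₂.X.P.I W.X.P.I g.fr (sum g e₁ e₂) x = e₂ x := by
  rw [sum, add_comm]
  exact pm_two (pr g) (pl g) (fun _ => h₁.eq_zero) (dj_l g) (g.r.mem_src hx)

theorem cur_sum (h : HZ B.Y.I 1 (univ : Set B.Y.M)) (k : g.Rs d d₁ d₂) (k₁ : Cur d₁ c₁) (k₂ : Cur d₂ c₂)
    (h₁ : Cs W₁.X.P.I 2 {x | W₁.X.τ x + g.δ₁ ≤ g.α} c₁) (h₂ : Cs W₂.X.P.I 2 {x | g.β ≤ W₂.X.τ x + g.δ₂} c₂) :
    Cur d (sum g c₁ c₂) :=
  have := sigT W.X; have := sigT W₁.X; have := sigT W₂.X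
  cur_two _ _ (cov g) (hz_ovl g h) ((rs_iff g).1 k).1 ((rs_iff g).1 k).2 k₁ k₂ h₁ h₂ (sub_l g) (sub_r g)
    (dj_l g) (dj_r g)

theorem ip_sum (h₁ : Cs W₁.X.P.I n {x | W₁.X.τ x + g.δ₁ ≤ g.α} e₁) (h₂ : Cs W₂.X.P.I n {x | g.β ≤ W₂.X.τ x + g.δ₂} e₂)
    {c : W.Fm} (hc : Dr59.Sm W.X.P.I univ c) : ip W.X.P.I W.o c (sum g e₁ e₂) =
      ip W₁.X.P.I W₁.o (pm W₁.X.P.I W.X.P.I g.fl c) e₁ + ip W₂.X.P.I W₂.o (pm W₂.X.P.I W.X.P.I g.fr c) e₂ :=
  ip_two (pl g) (pr g) W.ori W₁.ori W₂.ori (pl_src g ▸ g.pl) (pr_src g ▸ g.pr) h₁ h₂ (sub_l g) (sub_r g) hc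

theorem ip_sum_sum {m : ℕ} (k₁ : Cs W₁.X.P.I m {x | W₁.X.τ x + g.δ₁ ≤ g.α} c₁)
    (k₂ : Cs W₂.X.P.I m {x | g.β ≤ W₂.X.τ x + g.δ₂} c₂) (h₁ : Cs W₁.X.P.I n {x | W₁.X.τ x + g.δ₁ ≤ g.α} e₁)
    (h₂ : Cs W₂.X.P.I n {x | g.β ≤ W₂.X.τ x + g.δ₂} e₂) :
    ip W.X.P.I W.o (sum g c₁ c₂) (sum g e₁ e₂) = ip W₁.X.P.I W₁.o c₁ e₁ + ip W₂.X.P.I W₂.o c₂ e₂ := by
  rw [ip_sum g h₁ h₂ (cs_sum g k₁ k₂).cl.sm, h₁.ip_congr fun _ hx => pm_sum_l g k₂ (hx.trans_lt g.lt),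
    h₂.ip_congr fun _ hx => pm_sum_r g k₁ (g.lt.trans_le hx)]

end gl

end Crest.Agent.X212.Mv17
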