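import Crest.Agent.X212.Geo28.Lv
import Crest.Agent.X212.Mv17.Gl

/-!
# X212 / Mv17, part Cl (helper17): `Geo28.ClsStmt`
-/

set_option autoImplicit false
set_option linter.unusedSectionVars false

open Set Filter Topology Function
open scoped ContDiff Manifold
open Crest.Agent.R208.F (Ext)
open Crest.Agent.X212.Bor5.T Crest.Agent.X212.Rfl19 Crest.Agent.X212.Nvg56 Crest.Agent.X212.Geo28
open Crest.Agent.X212.Lab56 (Cls)
open Crest.Agent.X212.Dr59 (HZ Cl Cs Ex Cz dM)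
open Crest.Agent.X212.Rod53 (ld_pd)

noncomputable section

namespace Crest.Agent.X212.Mv17

/-- an exact part of a closed form is cut off -/
theorem kill {E : Type} [NormedAddCommGroup E] [NormedSpace ℝ E] [FiniteDimensional ℝ E]
    {H : Type} [TopologicalSpace H] {I : ModelWithCorners ℝ E H} [I.Boundaryless] {M : Type} [TopologicalSpace M]
    [ChartedSpace H M] [IsManifold I ∞ M] [T2Space M] [SigmaCompactSpace M] {U V : Set M} (hU : IsOpen U)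
    (hV : IsOpen V) (hu : U ∪ V = univ) {n : ℕ} {c : M → Ext E} (h : Cl I (n + 1) univ c) (hx : Ex I V c) :
    ∃ c', Cl I (n + 1) univ c' ∧ Ex I univ (c' - c) ∧ (∀ x ∉ U, c' x = 0) ∧ ∀ x ∉ V, c' x = c x := by
  obtain ⟨χ, hχ⟩ := Dr59.exists_cut (I := I) hU hV
  obtain ⟨q, q1, q2, q3⟩ := hx.deg (h.dg.mono (subset_univ _))
  have m := fun x => hu.ge (mem_univ x)
  have z : Cz I univ V (1 - χ) := ⟨fun x _ => contMDiffAt_const.sub (hχ.sm x (m x)),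
    fun x _ hw => (hχ.o x ((m x).resolve_right hw) hw).mono fun y hy => by simp [hy]⟩
  refine ⟨c - dM I ((1 - χ) • q), h.sub (Dr59.cl_dM isOpen_univ (z.sm_smul q1) (z.dg_smul q2)),
    (Dr59.ex_dM (z.sm_smul q1)).neg.congr fun x _ => by simp, fun x hx => ?_, fun x hx => ?_⟩
  · have k := (m x).resolve_left hx
    rw [Pi.sub_apply, ← q3 x k, sub_eq_zero]
    exact Dr59.dM_congr ((hχ.z x k hx).mono fun y hy => by simp [hy])
  · rw [Pi.sub_apply, Dr59.dM_congr (z.smul_zero trivial hx q), Dr59.dM_zero]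
    exact sub_zero _

instance (X : M4) : SigmaCompactSpace X.M :=
  have := Manifold.locallyCompact_of_finiteDimensional (M := X.M) X.I
  inferInstance

section nc

variable {A : O3} {X X' : M4} {J J' : Set ℝ} (k : Nc A X J) {d : X.L} {d' : X'.L} {s s' : A.L}

theorem nc_src : k.k.source = Prod.snd ⁻¹' J := k.src.trans univ_prod

theorem nc_ld (z : A.Y.M × ℝ) (hz : z ∈ Prod.snd ⁻¹' J) : IsLocalDiffeomorphAt (IY A) X.I ∞ k.k z :=
  ld_pd k.k ((nc_src k).ge hz)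

theorem nc_tm {z : A.Y.M × ℝ} (hz : z.2 ∈ J) : k.tm (k.k z) = z.2 := k.tmk z ((nc_src k).ge hz)

theorem nc_snd {x : X.M} (hx : k.tm x ∈ J) : (k.k.symm x).2 = k.tm x :=
  (k.tmk _ (k.k.map_target (k.tgt.ge hx))).symm.trans (congrArg k.tm (k.k.right_inv (k.tgt.ge hx)))

theorem nc_cl : k.Cl d s ↔ Pb (I' := IY A) (N := A.Y.M × ℝ) k.k (Prod.snd ⁻¹' J) d
    (show Cls (IY A) (univ : Set (A.Y.M × ℝ)) from s) := by rw [Nc.Cl, univ_prod]

theorem nc_ex (hJ : IsOpen J) (hc : OrdConnected J) (hn : J.Nonempty) (d : X.L) : ∃ s, k.Cl d s :=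
  (end_ex hJ hc hn (nc_ld k) d).imp fun _ => (nc_cl k).2

theorem nc_uniq (hJ : IsOpen J) (hn : J.Nonempty) (h : k.Cl d s) (h' : k.Cl d s') : s = s' :=
  end_uniq (K := A.Y.I) hJ hn ((nc_cl k).1 h) ((nc_cl k).1 h')

theorem nc_iff (k' : Nc A X' J') (hJ : IsOpen J) (hc : OrdConnected J) (hn : J.Nonempty) (hJ' : IsOpen J')
    (hn' : J'.Nonempty) (h : ∀ s, k.Cl d s → k'.Cl d' s) : k.Cl d s ↔ k'.Cl d' s :=
  ⟨h s, fun e => let ⟨_, a⟩ := nc_ex k hJ hc hn d; nc_uniq k' hJ' hn' (h _ a) e ▸ a⟩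

theorem nc_img (h0 : J' ⊆ J) : k.k '' (Prod.snd ⁻¹' J') = k.tm ⁻¹' J' :=
  Subset.antisymm (image_subset_iff.2 fun _ hz => mem_of_eq_of_mem (s := J') (nc_tm k (h0 hz)) hz) fun x hx =>
    ⟨k.k.symm x, mem_of_eq_of_mem (s := J') (nc_snd k (h0 hx)) hx, k.k.right_inv (k.tgt.ge (h0 hx))⟩

theorem nc_hz {n : ℕ} (h : HZ A.Y.I n (univ : Set A.Y.M)) (hJ : IsOpen J') (hc : OrdConnected J') (h0 : J' ⊆ J) :
    HZ X.I n (k.tm ⁻¹' J') := by
  rw [← nc_img k h0, Dr59.hz_pd k.k (hJ.preimage continuous_snd) fun _ hz => (nc_src k).ge (h0 hz), ← univ_prod]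
  exact h.prod_convex isOpen_univ hJ hc.convex

/-- restriction to a truncated piece -/
theorem nc_res (l : PartialDiffeomorph X.I X'.I X.M X'.M ∞) (ls : l.source = k.tm ⁻¹' J') (hJ : IsOpen J)
    (hc : OrdConnected J) (hJ' : IsOpen J') (hc' : OrdConnected (J' ∩ J)) (hn : (J' ∩ J).Nonempty)
    (hu : J' ∪ J = univ) (d' : X'.L) : ∃! d : X.L, Pb l l.source d' d := by
  have hp : ∀ z ∈ k.k.source, k.k z ∈ l.source ↔ z.2 ∈ J' ∩ J := fun z hz => by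
    rw [ls, mem_preimage, k.tmk z hz]; exact ⟨fun a => ⟨a, (nc_src k).le hz⟩, fun a => a.1⟩
  have u : l.source ∪ k.k.target = univ := by rw [ls, k.tgt, ← preimage_union, hu, preimage_univ]
  obtain ⟨d, e⟩ := trunc_surj k.k (nc_src k) hp inter_subset_right l.open_source u (hJ'.inter hJ) hc' hn
    (d'.pull (fun _ hy => ld_pd l hy) (mapsTo_univ _ _))
  exact ⟨d, ⟨fun _ hy => ld_pd l hy, e.symm⟩, fun _ h => trunc_inj k.k (nc_src k) hp inter_subset_right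
    l.open_source u hJ hc (hJ'.inter hJ) hc' hn (h.2.symm.trans e.symm)⟩

theorem nc_ag {l : Filter ℝ} (hl : Nd l) (hf : Fat l) (k' : Nc A X' J) (hJ : IsOpen J) (hc : OrdConnected J)
    (h1 : J ∈ l) (h2 : J' ∈ l) {f : X.M → X'.M} {O : Set X.M} (hO : ∀ p, k.tm p ∈ J' → p ∈ O)
    (a : Ag l (f ∘ k.k) k'.k) (h : Pb f O d' d) : k.Cl d s ↔ k'.Cl d' s :=
  have n := (hf _ h1).mono interior_subset
  nc_iff k k' hJ hc n hJ n fun _ e => (nc_cl k').2 (pb_ag hl hf (ag_symm hl a) hJ hc h1 (inter_mem h1 h2) (nc_ld k')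
    (pb_comp h (pb_mono ((nc_cl k).1 e) (preimage_mono inter_subset_left)) fun _ hz =>
      hO _ ((nc_tm k hz.1).symm ▸ hz.2)))

end nc

/-- closed two-forms are cut off along an end -/
theorem ec_kill {X : M4} {J J' : Set ℝ} (hJ : IsOpen J) (hc : OrdConnected J) (hJ' : IsOpen J') (h0 : 0 ∈ J')
    (hu : J' ∪ J = univ) {c : X.Fm} (h : Cl X.I 2 univ c) : ∀ (a : Option Q3) (k : Ec (vo a) X J),
    ∃ c', Cl X.I 2 univ c' ∧ Ex X.I univ (c' - c) ∧ (∀ x, k.tm x ∉ J' → c' x = 0) ∧ ∀ x, k.tm x ∉ J → c' x = c x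
  | none, _ => ⟨c, h, Dr59.ex_of_zero fun _ _ => sub_self _, fun _ e => (e h0).elim, fun _ _ => rfl⟩
  | some A, k => kill (hJ'.preimage (Nc.cont k)) (hJ.preimage (Nc.cont k))
      (by rw [← preimage_union, hu, preimage_univ]) h (nc_hz k A.h2 hJ hc subset_rfl _ (h.mono (subset_univ _)))

theorem pm_cur (a b : Option Q3) (T : Pm (vo a) (vo b) none) (d : T.L) : ∃ c, Cur d c ∧ T.Fo c := by
  obtain ⟨c, h⟩ := exists_cur d
  obtain ⟨c₁, a1, a2, a3, -⟩ := ec_kill (J' := Ioi (-1)) isOpen_Iio ordConnected_Iio isOpen_Ioi (by simp)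
    (by rw [union_comm, Iio_union_Ioi_of_lt (by norm_num)]) (cur_cl h) a T.ki
  obtain ⟨c₂, b1, b2, b3, b4⟩ := ec_kill (J' := Iio 1) isOpen_Ioi ordConnected_Ioi isOpen_Iio (by simp)
    (Iio_union_Ioi_of_lt one_pos) a1 b T.ko
  have z : ∀ x, x ∉ {p | -1 ≤ T.ki.tm p ∧ T.ko.tm p ≤ 1 ∧ T.k3.tm p ≤ 1} → c₂ x = 0 := fun x hx => by
    by_cases e : T.ko.tm x < 1
    · have e' : T.ki.tm x < -1 := lt_of_not_ge fun k => hx ⟨k, e.le, zero_le_one⟩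
      rw [b4 x (T.io x (by linarith)).not_gt, a3 x e'.le.not_gt]
    · exact b3 x e
  exact ⟨c₂, cur_of_ex (cur_of_ex h a1 a2) b1 b2, b1, HasCompactSupport.intro (T.cpt 1) z,
    closure_minimal (fun x hx => by_contra fun e => hx (z x e)) (T.cpt 1).isClosed⟩

section gl3

variable {A : O3} {X₁ X₂ X : M4} {k₁ : Nc A X₁ (Ioi 0)} {k₂ : Nc A X₂ (Iio 0)} (g : Gl3 k₁ k₂ X)
  {d d' : X.L} {d₁ : X₁.L} {d₂ : X₂.L} {s : A.L}

theorem g3_cov : g.l.target ∪ g.r.target = univ := by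
  rw [g.lt, g.rt, ← preimage_union, Iio_union_Ioi_of_lt four_pos, preimage_univ]

theorem g3_ovl : g.n.k.target = g.l.target ∩ g.r.target := by
  rw [g.lt, g.rt, g.n.tgt, ← preimage_inter, Iio_inter_Ioi]

theorem g3_l (d : X.L) : ∃! d₁, g.Rl d d₁ :=
  nc_res k₁ g.l g.ls isOpen_Ioi ordConnected_Ioi isOpen_Iio (ordConnected_Iio.inter ordConnected_Ioi)
    ⟨1, by norm_num, by norm_num⟩ (Iio_union_Ioi_of_lt four_pos) d

theorem g3_r (d : X.L) : ∃! d₂, g.Rr d d₂ :=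
  nc_res k₂ g.r g.rs isOpen_Iio ordConnected_Iio isOpen_Ioi (ordConnected_Ioi.inter ordConnected_Iio)
    ⟨-1, by norm_num, by norm_num⟩ (by rw [union_comm, Iio_union_Ioi_of_lt (by norm_num)]) d

theorem g3_ml {z : A.Y.M × ℝ} (hz : z.2 ∈ Ioo (0 : ℝ) 4) : k₁.k z ∈ g.l.source :=
  g.ls.ge ((nc_tm k₁ hz.1).trans_lt hz.2)

theorem g3_mr {z : A.Y.M × ℝ} (hz : z.2 ∈ Ioo (0 : ℝ) 4) : k₂.k (z.1, z.2 - 4) ∈ g.r.source :=
  g.rs.ge (mem_of_eq_of_mem (s := Ioi (-4)) (nc_tm k₂ (z := (z.1, z.2 - 4)) (sub_neg.2 hz.2)) (by simpa using hz.1))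

theorem ev_n {Z : Type} {f f' : A.Y.M × ℝ → Z} (e : ∀ z : A.Y.M × ℝ, z.2 ∈ Ioo (0 : ℝ) 4 → f z = f' z)
    (z : A.Y.M × ℝ) (hz : z ∈ Prod.snd ⁻¹' Ioo (0 : ℝ) 4) : f =ᶠ[𝓝 z] f' :=
  eventually_of_mem ((isOpen_Ioo.preimage continuous_snd).mem_nhds hz) e

theorem sh_4 (h : k₂.Cl d₂ s) : Pb (I' := IY A) (fun z : A.Y.M × ℝ => k₂.k (z.1, z.2 - 4)) (Prod.snd ⁻¹' Ioo 0 4) d₂
    (show Cls (IY A) (univ : Set (A.Y.M × ℝ)) from s) :=
  pb_sh (-4) (fun _ _ _ => rfl) isOpen_Ioo (fun _ ht => sub_neg.2 ht.2) ((nc_cl k₂).1 h)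

theorem g3_nl (h : g.Rl d d₁) : k₁.Cl d₁ s ↔ g.n.Cl d s :=
  nc_iff k₁ g.n isOpen_Ioi ordConnected_Ioi nonempty_Ioi isOpen_Ioo (nonempty_Ioo.2 four_pos) fun _ e =>
    (nc_cl g.n).2 (pb_congr (pb_comp h (pb_mono ((nc_cl k₁).1 e) (preimage_mono Ioo_subset_Ioi_self))
      fun _ hz => g3_ml g hz) (ev_n fun z hz => (g.ol z.1 z.2 hz).symm))

theorem g3_nr (h : g.Rr d d₂) : k₂.Cl d₂ s ↔ g.n.Cl d s :=
  nc_iff k₂ g.n isOpen_Iio ordConnected_Iio nonempty_Iio isOpen_Ioo (nonempty_Ioo.2 four_pos) fun _ e =>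
    (nc_cl g.n).2 (pb_congr (pb_comp h (sh_4 e) fun _ hz => g3_mr g hz) (ev_n fun z hz => (g.or z.1 z.2 hz).symm))

theorem g3_mv (h₁ : k₁.Cl d₁ s) (h₂ : k₂.Cl d₂ s) : ∃ d, g.Rl d d₁ ∧ g.Rr d d₂ :=
  glue_ex g.l g.r (g3_cov g) g.n.k (g3_ovl g)
    (nc_src g.n ▸ pb_congr (pb_mono ((nc_cl k₁).1 h₁) (preimage_mono Ioo_subset_Ioi_self))
      (ev_n fun z hz => (congrArg g.l.symm (g.ol z.1 z.2 hz).symm).trans (g.l.left_inv (g3_ml g hz))))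
    (nc_src g.n ▸ pb_congr (sh_4 h₂)
      (ev_n fun z hz => (congrArg g.r.symm (g.or z.1 z.2 hz).symm).trans (g.r.left_inv (g3_mr g hz))))

theorem g3_hz {n : ℕ} (h : HZ A.Y.I n (univ : Set A.Y.M)) : HZ X.I n (g.l.target ∩ g.r.target) :=
  g3_ovl g ▸ g.n.tgt ▸ nc_hz g.n h isOpen_Ioo ordConnected_Ioo subset_rfl

/-- units of the neck split if the units of the slice extend over the right piece -/
theorem g3_spl (h : ∀ v : A.Y.M → Circle, ContMDiff A.Y.I (𝓡 1) ∞ v → ∃ u : X₂.M → Circle,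
    ContMDiff X₂.I (𝓡 1) ∞ u ∧ ∀ y, ∀ t < (0 : ℝ), u (k₂.k (y, t)) = v y) : Spl X.I g.l.target g.r.target :=
  fun c hc => by
  rw [← g3_ovl g] at hc
  have t : (1 : ℝ) ∈ Ioo (0 : ℝ) 4 := ⟨one_pos, by norm_num⟩
  have k1 : Ut (IY A) (c ∘ g.n.k) (univ ×ˢ Ioo 0 4) := hc.comp (fun z hz => (ld_pd g.n.k (g.n.src.ge hz)).contMDiffAt)
    fun z hz => g.n.k.map_source (g.n.src.ge hz)
  obtain ⟨v, hv⟩ := (k1.comp (I' := A.Y.I) (f := fun y => (y, (1 : ℝ))) (W := univ)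
    (fun _ _ => contMDiffAt_id.prodMk contMDiffAt_const) fun _ _ => ⟨trivial, t⟩).circ isOpen_univ
  obtain ⟨u, u1, u2⟩ := h v fun y => (hv y trivial).1
  have k2 : Ut X.I (fun x => (u (g.r.symm x) : ℂ)) g.r.target := fun x hx =>
    ⟨(Line51.contMDiff_coe _).comp x ((u1 _).comp x (ld_pd g.r.symm hx).contMDiffAt), Circle.norm_coe _⟩
  have k3 := (lg_slice isOpen_Ioo ordConnected_Ioo t k1).comp (f := g.n.k.symm) (W := g.l.target ∩ g.r.target)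
    (fun x hx => (ld_pd g.n.k.symm ((g3_ovl g).ge hx)).contMDiffAt)
    fun x hx => g.n.src.le (g.n.k.map_target ((g3_ovl g).ge hx))
  refine ((k3.sq g.l.open_target g.r.open_target).mul (.right k2)).congr fun x hx => ?_
  obtain ⟨z, hz, rfl⟩ := g.n.k.image_source_eq_target.ge ((g3_ovl g).ge hx)
  have hz' := (g.n.src.le hz).2
  have e : (u (g.r.symm (g.n.k z)) : ℂ) = c (g.n.k (z.1, 1)) := by
    rw [← (g.or z.1 z.2 hz' :), show g.r.symm (g.r _) = _ from g.r.left_inv (g3_mr g hz'),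
      u2 _ _ (sub_neg.2 hz'.2)]
    exact (hv z.1 trivial).2
  simp only [Pi.mul_apply, Pi.inv_apply, comp_apply, show g.n.k.symm (g.n.k z) = z from g.n.k.left_inv hz, e]
  exact (inv_mul_cancel_right₀ (k1.ne (x := (z.1, 1)) ⟨trivial, t⟩) _).symm

end gl3

theorem nc_pb {A : O3} {W : W4} {J J' : Set ℝ} {l : Filter ℝ} (hl : Nd l) (hf : Fat l) (k : Nc A (m4 W) J)
    (k' : Cyl58.TIso A.cyl W.X J') (hJ : IsOpen J) (hc : OrdConnected J) (hJ' : IsOpen J') (hc' : OrdConnected J')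
    (h1 : J ∈ l) (h2 : J' ∈ l) (a : Ag l k.k k') {d : W.L} {s : A.L} : Pb k' (A.cyl.τ ⁻¹' J') d s ↔ k.Cl d s :=
  ⟨fun e => (nc_cl k).2 (pb_ag hl hf a hJ hc h1 h2 (nc_ld k) e), fun e =>
    pb_ag (K := A.Y.I) (Y := A.Y.M) hl hf (ag_symm hl a) hJ' hc' h2 h1 (fun _ hz => k'.ld hz) ((nc_cl k).1 e)⟩

/-- **GEO-CLS** -/
theorem clsStmt : Geo28.ClsStmt where
  nk _ _ _ k hJ hc hn d := existsUnique_of_exists_of_unique (nc_ex k hJ hc hn d) fun _ _ => nc_uniq k hJ hn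
  l := g3_l
  r := g3_r
  nl g _ _ _ := g3_nl g
  nr g _ _ _ := g3_nr g
  agi
    | none => fun _ _ _ _ _ _ _ _ _ _ _ => Iff.rfl
    | some _ => fun k k' _ _ _ _ _ _ ⟨T, h⟩ a e => nc_ag k nd_bot fat_bot k' isOpen_Iio ordConnected_Iio
        (Iio_mem_atBot 0) (Iio_mem_atBot T) h a e
  ago
    | none => fun _ _ _ _ _ _ _ _ _ _ _ => Iff.rfl
    | some _ => fun k k' _ _ _ _ _ _ ⟨T, h⟩ a e => nc_ag k nd_top fat_top k' isOpen_Ioi ordConnected_Ioi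
        (Ioi_mem_atTop 0) (Ioi_mem_atTop T) h a e
  mv g _ _ _ := g3_mv g
  mvu {A} _ _ _ _ _ g _ _ _ _ a b a' b' := glue_inj g.l g.r (g3_cov g)
    (spl_of_hz g.l.open_target g.r.open_target (g3_hz g A.h1)) a a' b b'
  mvb G _ _ _ g d d' _ a a' :=
    let ⟨x, b, _⟩ := g3_r g d
    let ⟨x', b', _⟩ := g3_r g d'
    glue_inj g.l g.r (g3_cov g) (g3_spl g G.sur) (d₂ := G.dB) a a' (G.uB x ▸ b) (G.uB x' ▸ b')
  cur := pm_cur
  inn C e _ _ h := nc_pb nd_bot fat_bot e.ki C.ki isOpen_Iio ordConnected_Iio isOpen_Iio ordConnected_Iio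
    (Iio_mem_atBot _) (Iio_mem_atBot _) h.1
  out C e _ _ h := nc_pb nd_top fat_top e.ko C.ko isOpen_Ioi ordConnected_Ioi isOpen_Ioi ordConnected_Ioi
    (Ioi_mem_atTop _) (Ioi_mem_atTop _) h.2

end Crest.Agent.X212.Mv17
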