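import Crest.Agent.X212.Cut19.Stm
import Crest.Agent.X212.Pen22.Gl
import Crest.Agent.X212.Mv17.Cl
import Crest.Agent.X212.Int54.Cyl

/-!
# X212 / Mv17, part Thm (helper17): the sphere of a neck `S² × S¹`

* `ex_of_ip`, `ex_cyl`, `glue_eq` : exact forms;  `bd_r3`, `exists_om` : the cohomology of `S² × S¹`;
* `thmStmt : Cut19.ThmStmt`, `nsStmt : Cut19.NsStmt`.
-/

set_option autoImplicit false
set_option linter.unusedSectionVars false

open Set Filter Topology Function MeasureTheory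
open scoped ContDiff Manifold
open Crest.Agent.R208.F (Ext)
open Crest.Agent.X212.Bor5.T Crest.Agent.X212.Geo28 Crest.Agent.X212.Dr59
open Crest.Agent.X212.Int54 (Ori integ)
open Crest.Agent.X212.Pen22 (thm Stp CH)
open Crest.Agent.X212.Line51 (ang CSm)
open Crest.Agent.X212.Rod53 (ld_pd)
open Crest.Agent.X212.Orx52 (oR)

noncomputable section

namespace Crest.Agent.X212.Mv17

section gen

variable {E : Type} [NormedAddCommGroup E] [NormedSpace ℝ E] [FiniteDimensional ℝ E]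
  {H : Type} [TopologicalSpace H] {I : ModelWithCorners ℝ E H} [I.Boundaryless] {M : Type} [TopologicalSpace M]
  [ChartedSpace H M] [IsManifold I ∞ M] [T2Space M] {U V : Set M} {k l : ℕ} {a b o e y z : M → Ext E}

theorem ex_cyl {J J' : Set ℝ} (hU : IsOpen U) (hJ : IsOpen J) (hc : OrdConnected J) (h0 : J' ⊆ J) (hn : J'.Nonempty)
    {a : M × ℝ → Ext (E × ℝ)} (ha : Cl (I.prod 𝓘(ℝ, ℝ)) k (U ×ˢ J) a) (hx : Ex (I.prod 𝓘(ℝ, ℝ)) (U ×ˢ J') a) :
    Ex (I.prod 𝓘(ℝ, ℝ)) (U ×ˢ J) a :=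
  let ⟨_, ht⟩ := hn
  cls_eq_zero.1 (by
    rw [← st_fst_inl hU hJ (h0 ht) (hc.convex.starConvex (h0 ht)) ha.cls, Mp.st_cls,
      cls_eq_zero.2 (hx.pm (mp_inl U ht)), map_zero])

/-- closed forms are glued without a change off `V` -/
theorem glue_eq [SigmaCompactSpace M] (hU : IsOpen U) (hV : IsOpen V) (hu : U ∪ V = univ) (ha : Cl I (k + 1) U a)
    (hb : Cl I (k + 1) V b) (hx : Ex I (U ∩ V) (a - b)) :
    ∃ c, Cl I (k + 1) univ c ∧ Ex I V (c - b) ∧ ∀ x ∉ V, c x = a x := by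
  obtain ⟨χ, hχ⟩ := exists_cut (I := I) hU hV
  obtain ⟨c, c1, c2, c3⟩ := mv_glue hU hV hχ ha hb hx
  rw [hu] at c1
  obtain ⟨q, q1, q2, q3⟩ := c2.deg ((c1.dg.mono (subset_univ _)).sub ha.dg)
  have m := fun x => hu.ge (mem_univ x)
  have z : Cz I univ U χ := ⟨fun x _ => hχ.sm x (m x), fun x _ hw => hχ.z x ((m x).resolve_left hw) hw⟩
  refine ⟨c - dM I (χ • q), c1.sub (cl_dM isOpen_univ (z.sm_smul q1) (z.dg_smul q2)),
    (c3.sub ((ex_dM (z.sm_smul q1)).mono (subset_univ _))).congr fun x _ => by simp only [Pi.sub_apply]; abel,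
    fun x hx => ?_⟩
  have k := (m x).resolve_right hx
  rw [Pi.sub_apply, dM_congr (b := q) ((hχ.o x k hx).mono fun y hy => by simp [hy]), q3 x k, Pi.sub_apply,
    sub_sub_cancel]

variable [MeasurableSpace E] [BorelSpace E] [MeasurableSpace M] [BorelSpace M] [SecondCountableTopology M]

/-- in rank one a test form detects exactness -/
theorem ex_of_ip (ho : Ori I o) (hb : Bd I k U 1) (he : Cs I l U e) (hz : Cl I k U z) (hn : ip I o z e ≠ 0)
    (hy : Cl I k U y) (h : ip I o y e = 0) : Ex I U y := by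
  obtain ⟨r, hr⟩ := Bd.span (ι := Unit) hb (e := fun _ => hz.cls) (fun r k _ => by
    rw [Fintype.sum_unique, ← cls_smul, cls_eq_zero] at k
    exact (mul_eq_zero.1 ((ip_smul _ _ _ _).symm.trans (he.ip_ex ho k))).resolve_right hn) hy.cls
  rw [Fintype.sum_unique, ← cls_smul, cls_eq] at hr
  have k := (mul_eq_zero.1 ((ip_smul _ _ _ _).symm.trans
    ((he.ip_coh ho (hz.sm.smul _) hy.sm hr).trans h))).resolve_right hn
  rw [k, zero_smul, zero_sub] at hr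
  simpa using hr.neg

theorem integ_ne [CompactSpace M] [ConnectedSpace M] (ho : Ori I o) (ha : Ori I a) : integ I o a ≠ 0 := by
  have key : ∀ a : M → Ext E, Ori I a → Int54.SameOn o a univ → 0 < integ I o a := fun a ha h =>
    haveI := ho.finCpt
    haveI := ho.openPos
    (ho.continuous_rat ha.c0).integral_pos_of_hasCompactSupport_nonneg_nonzero (x := Classical.arbitrary M)
      (HasCompactSupport.of_compactSpace _) (fun _ => (h.rat_pos trivial).le) (h.rat_pos trivial).ne'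
  rcases ho.sameOn_or ha isPreconnected_univ with h | h
  · exact (key a ha h).ne'
  · exact neg_ne_zero.1 (Int54.integ_neg (I := I) o a ▸ (key _ ha.neg h).ne')

end gen

section r3

variable (R : R3)

/-- the projection to the circle -/
abbrev uR (y : R.Y.M) : Circle := (R.φ y).2

theorem sm_uR (y : R.Y.M) : CSm R.Y.I (uR R) y := (R.φ.contMDiff y).snd

theorem bd_r3 {k n m : ℕ} (h1 : Bd (𝓡 2) (k + 1) (univ : Set (Sp 2)) n) (h2 : Bd (𝓡 2) k (univ : Set (Sp 2)) m) :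
    Bd R.Y.I (k + 1) (univ : Set R.Y.M) (m + n) := by
  refine (bd_oe R.φ.isLocalDiffeomorph R.φ.injective isOpen_univ).1 ?_
  rw [image_univ, (show Surjective R.φ from R.φ.surjective).range_eq, ← univ_prod_univ]
  exact h1.prod_circle isOpen_univ h2

theorem exists_om : ∃ ϖ, Cl R.Y.I 2 univ ϖ ∧ integ R.Y.I R.o (ϖ * ang R.Y.I (uR R)) ≠ 0 := by
  obtain ⟨o, ho⟩ := Orx52.exists_ori_sphere (V := EuclideanSpace ℝ (Fin 3)) (n := 2) one_lt_two
  obtain ⟨s, s1, s2, -⟩ := Orx52.exists_ori_open dense_univ isOpen_univ (fun x _ => ⟨ho.sm x, ho.ne x⟩)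
    fun x hx => (hx trivial).elim
  rw [finrank_euclideanSpace_fin] at s2
  refine ⟨_, Cl.pm ⟨fun x _ => s1.sm x, s2, fun x hx => (s2.dM isOpen_univ x hx).eq_zero (by simp)⟩
    ⟨fun y _ => (R.φ.contMDiff y).fst, mapsTo_univ _ _⟩, ?_⟩
  have d := fun y => (R.φ.contMDiff y).mdifferentiableAt (by simp)
  convert integ_ne R.ori (Orx52.ori_pm (Orx52.ori_pr s1 Orx52.ori_oC) R.φ.isLocalDiffeomorph) using 2
  funext y
  rw [Orx52.pm_pr (d y), Orx52.pm_oC (g := Prod.snd ∘ R.φ) (d y).snd]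
  rfl

variable {χ : ℝ → ℝ} (hχ : Stp χ)
include hχ

theorem stp_deriv {t : ℝ} (ht : t ∉ Icc (-3 : ℝ) (-1)) : deriv χ t = 0 := by
  rcases not_and_or.1 ht with h | h
  · rw [EventuallyEq.deriv_eq (f := fun _ => 0) (eventually_of_mem (Iio_mem_nhds (not_le.1 h))
      fun _ k => hχ.2.1 _ (le_of_lt k)), deriv_const]
  · rw [EventuallyEq.deriv_eq (f := fun _ => 1) (eventually_of_mem (Ioi_mem_nhds (not_le.1 h))
      fun _ k => hχ.2.2 _ (le_of_lt k)), deriv_const]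

theorem stp_int : ∫ t, deriv χ t = 1 := by
  rw [integral_of_hasDerivAt_of_tendsto (f := χ) (m := 0) (n := 1)
    (fun y => (hχ.1.differentiable (by simp) y).hasDerivAt)
    ((hχ.1.continuous_deriv (by simp)).integrable_of_hasCompactSupport
      (HasCompactSupport.intro isCompact_Icc fun _ => stp_deriv hχ))
    (tendsto_const_nhds.congr' ((eventually_le_atBot _).mono fun _ k => (hχ.2.1 _ k).symm))
    (tendsto_const_nhds.congr' ((eventually_ge_atTop _).mono fun _ k => (hχ.2.2 _ k).symm)), sub_zero]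

theorem cs_th : Cs (IY R.toO3) 2 (univ ×ˢ Icc (-3) (-1))
    (df (IY R.toO3) (fun p => χ p.2) * ang (IY R.toO3) fun p => (R.φ p.1).2) := by
  have z : ∀ p ∉ (univ : Set R.Y.M) ×ˢ Icc (-3 : ℝ) (-1),
      (df (IY R.toO3) (fun p : R.Y.M × ℝ => χ p.2) * ang (IY R.toO3) fun p : R.Y.M × ℝ => (R.φ p.1).2 :) p = 0 := fun p hp => by
    rw [Pi.mul_apply, Int54.df_snd (hχ.1.differentiable (by simp)), Int54.pm_snd, Pi.smul_apply',
      stp_deriv hχ fun k => hp ⟨trivial, k⟩, zero_smul, map_zero, zero_mul]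
  have K := (isCompact_univ (X := R.Y.M)).prod (isCompact_Icc (a := (-3 : ℝ)) (b := -1))
  exact ⟨(cl_df fun z _ => (hχ.1.contMDiff.comp contMDiff_snd) z).mul
    (Line51.cl_ang fun z _ => (sm_uR R z.1).comp z contMDiffAt_fst), .intro K z,
    closure_minimal (fun p hp => by_contra fun n => hp (z p n)) K.isClosed⟩

theorem ip_th (ϖ : R.Y.M → Ext R.Y.E) : ip (IY R.toO3) (Orx52.pr R.o oR) (pm (IY R.toO3) R.Y.I Prod.fst ϖ)
    (df (IY R.toO3) (fun p => χ p.2) * ang (IY R.toO3) fun p => (R.φ p.1).2) =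
      -integ R.Y.I R.o (ϖ * ang R.Y.I (uR R)) := by
  have e : (fun z : R.Y.M × ℝ => Crest.Agent.R208.F.inv (ang (IY R.toO3) (fun p : R.Y.M × ℝ => (R.φ p.1).2) z)) =
      -pm (IY R.toO3) R.Y.I Prod.fst (ang R.Y.I (uR R)) := funext fun z => by
    rw [inv_of_deg (Line51.dg_ang (U := univ) _ z trivial), Pi.neg_apply,
      Line51.pm_ang (sm_uR R _) mdifferentiableAt_fst, pow_one, neg_one_smul]
    rfl
  rw [ip, Int54.df_mul, e, neg_mul, mul_neg, Int54.integ_neg, ← mul_assoc, ← pm_mul, Int54.oR_eq_dt, Int54.pr_eq_pr,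
    Int54.integ_neck R.ori.cd _ (hχ.1.differentiable (by simp)), stp_int hχ, mul_one]

end r3

theorem nc_mp {A : O3} {X : M4} {J J' : Set ℝ} (k : Nc A X J) (h : J' ⊆ J) :
    Mp (IY A) X.I (univ ×ˢ J') (k.tm ⁻¹' J') k.k :=
  ⟨fun z hz => (nc_ld k z (h hz.2)).contMDiffAt, fun _ hz => mem_of_eq_of_mem (s := J') (nc_tm k (h hz.2)) hz.2⟩

theorem mp_symm {X X' : M4} (φ : Pen22.PD X X') : Mp X'.I X.I φ.target univ φ.symm :=
  ⟨fun _ h => (ld_pd φ.symm h).contMDiffAt, mapsTo_univ _ _⟩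

/-- **CUT-THM** -/
theorem thmStmt : Cut19.ThmStmt := fun R X k χ hχ => by
  have i : Icc (-3 : ℝ) (-1) ⊆ Iio 0 := fun t ht => ht.2.trans_lt (by norm_num)
  have s : (univ : Set R.Y.M) ×ˢ Icc (-3 : ℝ) (-1) ⊆ k.k.source := k.src ▸ prod_mono_right i
  have c : Cs X.I 2 (k.tm ⁻¹' Icc (-3) (-1)) (thm R k χ) := nc_img k i ▸ univ_prod ▸ (cs_th R hχ).psh k.k s
  refine ⟨c, fun J hJ hc h1 h2 y hy => ⟨?_, (c.mono (preimage_mono h1)).ip_ex X.ori⟩⟩
  obtain ⟨ϖ, h, h'⟩ := exists_om R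
  have m : Mp X.I (IY R.toO3) k.k.target univ k.k.symm := ⟨fun _ h => (ld_pd k.k.symm h).contMDiffAt, mapsTo_univ _ _⟩
  refine ex_of_ip X.ori ?_ (c.mono (preimage_mono h1)) ((((h.pm (mp_fst univ univ)).mono univ_prod_univ.ge).pm m).mono
    ((preimage_mono h2).trans k.tgt.ge)) ?_ hy
  · rw [← nc_img k h2, bd_pd k.k (hJ.preimage continuous_snd) fun _ hz => (nc_src k).ge (h2 hz), ← univ_prod]
    exact (bd_r3 R bd_sphere (bd_zero.2 (hz_sphere (k := 0) (by simp)))).prod_convex isOpen_univ hJ hc.convex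
  · rw [thm, (cs_th R hχ).ip_psh k.k s X.ori (Orx52.ori_pr R.ori Orx52.ori_oR) (Int54.SameOn.symm (k.pos.mono s)),
      (cs_th R hχ).ip_congr fun z hz => Orx52.pm_pm_inv (ld_pd k.k (s hz)) (Orx52.symm_comp k.k (s hz)) _, ip_th R hχ]
    exact neg_ne_zero.2 h'

theorem mt_pre {X X' : M4} {J : Set ℝ} {f : X.M → X'.M} (h0 : (0 : ℝ) ∉ J) {p : X'.M} : ∀ {a : Option O3}
    {k : Ec a X J} {k' : Ec a X' J}, Ec.Mt 0 f k k' → k'.tm p ∈ J → ∃ q, k.tm q ∈ J ∧ f q = p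
  | none, _, _, _, e => (h0 e).elim
  | some _, k, k', h, e =>
    let ⟨y, hy⟩ := Pen22.exists_k k' e
    ⟨_, mem_of_eq_of_mem (Pen22.tm_k k y e) e, (h y _ e (abs_pos.2 fun z => h0 (mem_of_eq_of_mem z.symm e))).trans hy⟩

theorem g3_img {A : O3} {X₁ X₂ X : M4} {k₁ : Nc A X₁ (Ioi 0)} {k₂ : Nc A X₂ (Iio 0)} (g : Gl3 k₁ k₂ X) :
    g.r '' (k₂.tm ⁻¹' Ioo (-4) 0) = g.l.target ∩ g.r.target :=
  Subset.antisymm (image_subset_iff.2 fun p hp => ⟨(Pen22.mem_lt g).2 (by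
    rw [Pen22.tm_r g ((Pen22.mem_r g).2 hp.1) (.inl hp.2)]; linarith [hp.2]), g.r.map_source ((Pen22.mem_r g).2 hp.1)⟩)
    fun x hx => by
      obtain ⟨p, hp, rfl⟩ := g.r.image_source_eq_target.ge hx.2
      have h := (Pen22.mem_lt g).1 hx.1
      exact ⟨p, ⟨(Pen22.mem_r g).1 hp, by linarith [Pen22.tm_r g hp (.inr h)]⟩, rfl⟩

/-- **CUT-NS** -/
theorem nsStmt : Cut19.NsStmt := fun G H a L X g ⟨e, e1, e2, e3⟩ => by
  obtain ⟨f, f1, -, f3⟩ := G.ext
  obtain ⟨χ, ε, hχ, -, sph⟩ := H.sph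
  let k : Nc G.R.toO3 G.N.X (Iio 0) := G.N.ki
  obtain ⟨t1, t2⟩ := thmStmt G.R G.N.X k χ hχ
  have i : Icc (-3 : ℝ) (-1) ⊆ Ioo (-4) 0 := Icc_subset_Ioo (by norm_num) (by norm_num)
  have s : k.tm ⁻¹' Ioo (-4) 0 ⊆ g.r.source := fun p hp => g.rs.ge hp.1
  have o := isOpen_Ioo.preimage k.cont (t := Ioo (-4) 0)
  have n : G.N.X.ip f (thm G.R k χ) ≠ 0 := fun h => f3 (((t2 _ isOpen_Iio ordConnected_Iio
    (i.trans Ioo_subset_Iio_self) subset_rfl f (f1.mono (subset_univ _))).1 h).pm (nc_mp k subset_rfl))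
  have ca := e1.pm (mp_symm g.l)
  have cb := f1.pm (mp_symm g.r)
  have ca' := (ca.mono inter_subset_left).pm (g3_img g.toGl3 ▸ pd_mp g.r s)
  have rb : ∀ p ∈ g.r.source, pm G.N.X.I X.X.I g.r (pm X.X.I G.N.X.I g.r.symm f) p = f p := fun p hp =>
    Orx52.pm_pm_inv (ld_pd g.r hp) (Orx52.symm_comp g.r hp) _
  obtain ⟨c, hc⟩ : ∃ c : ℝ, G.N.X.ip (pm G.N.X.I X.X.I g.r (pm X.X.I L.X.I g.l.symm e)) (thm G.R k χ) =
    c * G.N.X.ip f (thm G.R k χ) := ⟨_, (div_mul_cancel₀ _ n).symm⟩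
  have f2 := (f1.smul c).mono (subset_univ (k.tm ⁻¹' Ioo (-4) 0))
  have x := g3_img g.toGl3 ▸ ex_pd g.r o s (a := pm X.X.I L.X.I g.l.symm e - c • pm X.X.I G.N.X.I g.r.symm f)
    (((t2 _ isOpen_Ioo ordConnected_Ioo i Ioo_subset_Iio_self _
    (ca'.sub f2)).1 (((t1.mono (preimage_mono i)).ip_sub G.N.X.ori ca'.sm f2.sm).trans
      (by rw [ip_smul]; exact sub_eq_zero.2 hc))).congr fun p hp => by
        rw [pm_sub, pm_smul, Pi.sub_apply, Pi.sub_apply, Pi.smul_apply, rb p (s hp), Pi.smul_apply])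
  obtain ⟨y, y1, y2, y3⟩ := glue_eq g.l.open_target g.r.open_target (g3_cov g.toGl3) ca (cb.smul c) x
  have z : ∀ p, p ∉ {p | -0 ≤ X.ki.tm p ∧ X.ko.tm p ≤ 0 ∧ X.k3.tm p ≤ 0} → y p = 0 := fun p hp => by
    obtain ⟨q, h, h', rfl⟩ : ∃ q, (L.ki.tm q < 0 ∨ 0 < L.ko.tm q) ∧ L.k3.tm q ≤ 0 ∧ g.l q = p := by
      by_cases h : X.ki.tm p < 0
      · exact (mt_pre (by simp) g.ki h).imp fun q k => ⟨.inl k.1, L.i3 q k.1, k.2⟩
      · exact (mt_pre (by simp) g.ko (lt_of_not_ge fun h' => hp ⟨neg_zero.trans_le (not_lt.1 h), h', le_rfl⟩)).imp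
          fun q k => ⟨.inr k.1, L.o3 q k.1, k.2⟩
    rw [y3 _ fun k => (Pen22.l_le g.toGl3 le_rfl four_pos h').not_gt ((Pen22.mem_rt g.toGl3).1 k), pm_apply,
      show g.l.symm (g.l q) = q from g.l.left_inv (g.ls.ge (h'.trans_lt four_pos)), e2 q h, map_zero]
  refine ⟨y, ⟨y1, .intro (X.cpt 0) z, subset_univ _⟩, fun h => e3 ?_⟩
  have y' : Cl G.N.X.I 2 g.r.source (pm G.N.X.I X.X.I g.r y) := y1.pm (Pen22.mp_pd g.r)
  have w := fun b => Pen22.ip_pd g.r g.pr (H.zr b) (fun p hp => g.rs.ge (lt_of_lt_of_le (by norm_num) hp.1)) y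
  rw [w, w] at h
  have c0 : c = 0 := (mul_eq_zero.1 ((ip_smul _ _ _ _).symm.trans ((((t1.mono ((preimage_mono i).trans s)).ip_coh
    G.N.X.ori y'.sm ((f1.smul c).sm.mono (subset_univ _)) ((y2.pm ⟨(Pen22.mp_pd g.r).sm, fun _ => g.r.map_source⟩).congr
      fun p hp => by rw [pm_sub, pm_smul, Pi.sub_apply, Pi.sub_apply, Pi.smul_apply, Pi.smul_apply, rb p hp])).symm.trans
    ((sph _ (g.rs ▸ y' :)).trans (by rw [h, mul_zero])))))).resolve_right n
  rw [c0, zero_smul, sub_zero, ← g3_ovl g.toGl3, g.n.tgt] at x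
  refine ex_cyl isOpen_univ isOpen_Ioi ordConnected_Ioi Ioo_subset_Ioi_self (nonempty_Ioo.2 four_pos)
    ((e1.mono (subset_univ _)).pm (nc_mp _ subset_rfl)) ((x.pm (nc_mp g.n subset_rfl)).congr fun z hz => ?_)
  rw [pm_comp ((ld_pd g.l.symm ((g3_ovl g.toGl3).le (g.n.k.map_source (g.n.src.ge hz))).1).mdifferentiableAt (by simp))
    ((nc_ld g.n z hz.2).mdifferentiableAt (by simp))]
  exact pm_congr (ev_n (fun z hz => ((congrArg g.l.symm (g.ol z.1 z.2 hz).symm).trans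
    (g.l.left_inv (g3_ml g.toGl3 hz))).symm) z hz.2) rfl

end Crest.Agent.X212.Mv17
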