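import Crest.Agent.X212.Nv5.Chr

/-!
# Row 212, layer GEO (helper17): the classes of the plumbing

* `eqv_UN`, `cls_UN` : a class on the neighbourhood of a sphere is determined by its degree;
* `clnStmt : Cut19.ClnStmt`.
-/

set_option autoImplicit false
set_option linter.unusedSectionVars false

open Set Filter Topology Function Metric
open scoped ContDiff Manifold Real
open Crest.Agent.R208.F (Ext)
open Crest.Agent.X212.Lab56 Crest.Agent.X212.Line51 Crest.Agent.X212.Dr59 Crest.Agent.X212.Orx52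
open Crest.Agent.X212.Rod53 hiding Uni cj sw
open Crest.Agent.X212.Cut19 Crest.Agent.X212.Nv5.Ch

noncomputable section

namespace Crest.Agent.X212.Mv17

variable {w η η' : ℤ → Z2} {k k' : ℤ → ℤ} {s : Bool} {U : Set (X torT (wd wN))}
  {ι κ ι' κ' : Type} [Fintype ι] [Fintype κ] [DecidableEq ι] [DecidableEq κ]
  [Fintype ι'] [Fintype κ'] [DecidableEq ι'] [DecidableEq κ']
  {d : Sc (𝓡 4) (X torT (wd wN)) ι κ} {d' : Sc (𝓡 4) (X torT (wd wN)) ι' κ'}

theorem chs_eq (h : Chs w k η) {i j : ℤ} (hij : i ≤ j) (e : ∀ l, i ≤ l → l ≤ j → w l = w i) : k j = k i := by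
  induction j, hij using Int.leInduction with
  | base => rfl
  | succ n hn ih =>
    have := h (n + 1)
    rw [add_sub_cancel_right] at this
    rw [← this.2, e (n + 1) (by omega) le_rfl, ← e n hn (by omega), this.1]
    exact ih fun l a b => e l a (by omega)

/-- orders are constant along the rods -/
theorem chs_N (h : Chs wN k η) (l : ℤ) : (l < 0 → k l = k (-1)) ∧ (0 ≤ l → l < 10 → k l = k 0) ∧
    (10 ≤ l → l < 20 → k l = k 10) ∧ (20 ≤ l → k l = k 20) := by
  refine ⟨fun a => (chs_eq h (by omega) fun j b c => ?_).symm, fun a a' => chs_eq h a fun j b c => ?_,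
    fun a a' => chs_eq h a fun j b c => ?_, fun a => chs_eq h a fun j b c => ?_⟩ <;>
    simp only [wN, Cut19.sw] <;> split_ifs <;> first | omega | rfl

theorem eqv_of (hU : IsOpen U) (hd : d.On U) (hd' : d'.On U) (h : RP.Lab d (wm wN k) U)
    (h' : RP.Lab d' (wm wN k') U) (a : Z2) (e : ∀ x ∈ U, x ∉ off torT (wd wN) → wm wN k' =ᶠ[𝓝 (torT.time _ x)]
      wm wN (k + (fun l => dot a (wN l)) + fun l => dot a (wN l))) : Eqv d d' U :=
  have := sigX (T := torT) isN.loc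
  ((h.sq (tl_chi (η := a) (fun y _ => tor_torT _ y) fun _ _ _ => rep_dot _ _)).congr_m
    (by simpa only [wm_add, wm_dot] using e)).eqv hU (RP.rfx _) hd hd' h'

theorem eqv_UX (hd : d.On (UX s)) (hd' : d'.On (UX s)) (c : Chs wN k η) (c' : Chs wN k' η')
    (h : RP.Lab d (wm wN k) (UX s)) (h' : RP.Lab d' (wm wN k') (UX s)) (e : dg s k = dg s k') :
    Eqv d d' (UX s) := by
  have o : ∀ i : ℤ, (i : ℝ) + 1 / 2 ∈ Ioo (cond s 15 5 - 7 : ℝ) (cond s 15 5 + 7) → Even (k' i - k i) :=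
    fun i hi => (odd_wd isN (op_UX s) hd' h' (t := i + 1 / 2) ⟨by linarith, by linarith⟩
      fun _ o e => (axis_disc o).2 (e ▸ hi)).sub_odd (odd_wd isN (op_UX s) hd h (t := i + 1 / 2)
        ⟨by linarith, by linarith⟩ fun _ o e => (axis_disc o).2 (e ▸ hi))
  obtain ⟨a, ha⟩ := o (cond s 20 (-1)) (by cases s <;> norm_num)
  obtain ⟨b, hb⟩ := o 10 (by cases s <;> norm_num)
  refine eqv_of (op_UX s) hd hd' h h' (a, b) fun x hx q =>
    eventually_of_mem (isOpen_Ioo.mem_nhds ((axis_disc q).1 hx)) fun t ht =>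
      wm_congr (i := cond s 8 (-2)) (j := cond s 21 11) (fun _ _ _ => rfl) (fun l l1 l2 => ?_)
        (by cases s <;> norm_num at ht ⊢ <;> exact ht)
  have := chs_N c l
  have := chs_N c' l
  have := (chs_N c 5).2.1
  have := (chs_N c' 5).2.1
  have := (chs_N c 9).2.1
  have := (chs_N c' 9).2.1
  have := (chs_N c 15).2.2.1
  have := (chs_N c' 15).2.2.1
  cases s <;> simp only [cond, dg, Pi.add_apply, wN, Cut19.sw] at * <;> split_ifs <;> simp only [dot] <;> omega

theorem deg' {e : N0.Fm} (h : Gn s e) : ∃ ε : ℤ, (ε = 1 ∨ ε = -1) ∧ ∀ F k η, Chs wN k η →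
    WC torT wN (UX s) F (fun j => rc2 (η j)) → N0.X.ip F e = 2 * π * (ε * dg s k : ℤ) :=
  let ⟨K, l⟩ := h
  @deg s e K (borel _) (@BorelSpace.mk _ _ (borel _) rfl) (borel _)
    (@BorelSpace.mk _ _ (borel _) rfl) (torT.secondCountable isN.loc) l

theorem dg_eq {ε : ℤ} (hε : ε = 1 ∨ ε = -1) {a b : ℤ} (h : 2 * π * (ε * a : ℤ) = 2 * π * (ε * b : ℤ)) : a = b := by
  have := Int.cast_injective (mul_left_cancel₀ (by positivity) h)
  rcases hε with rfl | rfl <;> omega

/-- **the degree determines the datum near a sphere** -/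
theorem eqv_UN {e : N0.Fm} (h : Gn s e) (D D' : Dat N0.X.I (UN s)) {a a'} (ha : Ln.On N0.X.I ⟨D.d.det, a⟩ (UN s))
    (ha' : Ln.On N0.X.I ⟨D'.d.det, a'⟩ (UN s))
    (q : N0.X.ip (Ln.F N0.X.I ⟨D.d.det, a⟩) e = N0.X.ip (Ln.F N0.X.I ⟨D'.d.det, a'⟩) e) : Eqv D.d D'.d (UN s) := by
  obtain ⟨ε, hε, h⟩ := deg' h
  obtain ⟨k, η, h1, h2⟩ := lab_UX D.ok
  obtain ⟨k', η', h1', h2'⟩ := lab_UX D'.ok
  obtain ⟨_, _, t⟩ := id h2
  obtain ⟨_, _, t'⟩ := id h2'
  exact eqv_UX D.ok D'.ok h1 h1' h2 h2' (dg_eq hε ((h _ k η h1 (wc_line' h1 (op_UX s) ha t)).symm.trans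
    (q.trans (h _ k' η' h1' (wc_line' h1' (op_UX s) ha' t')))))

theorem cls_UN {e : N0.Fm} (h : Gn s e) (D D' : Dat N0.X.I (UN s)) {a a'} (ha : Ln.On N0.X.I ⟨D.d.det, a⟩ (UN s))
    (ha' : Ln.On N0.X.I ⟨D'.d.det, a'⟩ (UN s))
    (q : N0.X.ip (Ln.F N0.X.I ⟨D.d.det, a⟩) e = N0.X.ip (Ln.F N0.X.I ⟨D'.d.det, a'⟩) e) :
    (Quot.mk _ D : Cls N0.X.I (UN s)) = Quot.mk _ D' := Quot.sound (eqv_UN h D D' ha ha' q)

theorem lab_un (hd : d.On univ) : ∃ k η, Chs wN k η ∧ RP.Lab d (wm wN k) univ := by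
  obtain ⟨a, b, hu, hc⟩ := rod_N false
  obtain ⟨m, h⟩ := lab_ov isN.loc hu hc st_univ (hd.mono (subset_univ _))
  obtain ⟨σ, i, h⟩ := h.mono (O' := univ) fun x _ => ⟨tor_torT _ x, trivial⟩
  obtain ⟨k, η, h1, h2⟩ := tl_univ isN h
  exact ⟨k, η, h1, σ, i, h2⟩

theorem eqv_un (hd : d.On univ) (hd' : d'.On univ) (c : Chs wN k η) (c' : Chs wN k' η')
    (h : RP.Lab d (wm wN k) univ) (h' : RP.Lab d' (wm wN k') univ) (e : ∀ s, dg s k = dg s k') :
    Eqv d d' univ := by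
  have o : ∀ i : ℤ, Even (k' i - k i) := fun i =>
    (odd_wd isN isOpen_univ hd' h' (t := i + 1 / 2) ⟨by linarith, by linarith⟩ fun _ _ _ => trivial).sub_odd
      (odd_wd isN isOpen_univ hd h (t := i + 1 / 2) ⟨by linarith, by linarith⟩ fun _ _ _ => trivial)
  obtain ⟨a, ha⟩ := o (-1)
  obtain ⟨b, hb⟩ := o 10
  refine eqv_of isOpen_univ hd hd' h h' (a, b) fun _ _ _ => .of_eq (congrArg _ (funext fun l => ?_))
  have := chs_N c l
  have := chs_N c' l
  have := (chs_N c 5).2.1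
  have := (chs_N c' 5).2.1
  have := (chs_N c 9).2.1
  have := (chs_N c' 9).2.1
  have := (chs_N c 15).2.2.1
  have := (chs_N c' 15).2.2.1
  have := e false
  have := e true
  simp only [cond, dg, Pi.add_apply, wN, Cut19.sw] at *
  split_ifs <;> simp only [dot] <;> omega

/-- characters with prescribed degrees -/
def eP (p q : ℤ) (l : ℤ) : Z2 := if l < 10 then (p, -p) else if l < 20 then 0 else (-q, 0)

theorem chs_eP (p q : ℤ) : Chs wN (fun l => dot (eP p q l) (wN l)) (eP p q) := fun l => ⟨by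
  simp only [eP, wN, Cut19.sw]
  split_ifs <;> first | omega | simp [dot], rfl⟩

theorem chs_add (h : Chs w k η) (h' : Chs w k' η') : Chs w (k + k') (η + η') := fun l => by
  simp only [Pi.add_apply, dot_add, (h l).1, (h l).2, (h' l).1, (h' l).2, and_self]

/-- **CUT-CLN** -/
theorem clnStmt : ClnStmt := by
  have := sigX (T := torT) isN.loc
  constructor
  · rintro e he _ _ _ _ ⟨D, rfl, a, ha, rfl⟩ ⟨D', rfl, a', ha', rfl⟩ q
    obtain ⟨k, η, h1, h2⟩ := lab_un D.ok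
    obtain ⟨k', η', h1', h2'⟩ := lab_un D'.ok
    obtain ⟨_, _, t⟩ := id h2
    obtain ⟨_, _, t'⟩ := id h2'
    refine Quot.sound (eqv_un D.ok D'.ok h1 h1' h2 h2' fun s => ?_)
    obtain ⟨ε, hε, h⟩ := deg' (he s)
    exact dg_eq hε ((h _ k η h1 (wc_line' h1 (op_UX s) (ha.mono (subset_univ _)) (t.mono (subset_univ _)))).symm.trans
      ((q s).trans (h _ k' η' h1' (wc_line' h1' (op_UX s) (ha'.mono (subset_univ _)) (t'.mono (subset_univ _))))))
  · rintro e he _ _ n ⟨D, rfl, a, ha, rfl⟩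
    choose ε hε h using fun s => deg' (he s)
    obtain ⟨k, η, h1, h2⟩ := lab_un D.ok
    have c := chs_eP (ε false * n false) (ε true * n true)
    obtain ⟨q, σ, hq⟩ := exists_TL_wd torT (a := wN) (n := fun l => dot (eP _ _ l) (wN l)) fun i => ⟨_, c i⟩
    have k1 := D.ok.tw (LOn.of_ln (hq.on isOpen_univ))
    have k2 := k1.rix (Fintype.equivFin _).injective (Fintype.equivFin _).injective
    have h3 := (h2.tw isOpen_univ D.ok hq).of_eqv isOpen_univ (RP.rfx _) k1 k2.1 ⟨_, k2.2⟩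
    rw [← wm_add, ← wm_add] at h3
    obtain ⟨_, _, t⟩ := h2
    obtain ⟨_, _, t'⟩ := h3
    have c' := chs_add h1 (chs_add c c)
    refine ⟨_, _, ⟨⟨_, _, _, k2.1⟩, rfl, _, k2.1.det.on, rfl⟩, fun s => ?_⟩
    refine (h s _ _ _ c' (wc_line' c' (op_UX s) (k2.1.det.on.mono (subset_univ _)) (t'.mono (subset_univ _)))).trans
      (Eq.trans ?_ (congrArg (· + _) (h s _ _ _ h1 (wc_line' h1 (op_UX s) (ha.mono (subset_univ _))
        (t.mono (subset_univ _)))).symm))
    have : ε s * dg s (k + ((fun l => dot (eP (ε false * n false) (ε true * n true) l) (wN l)) +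
        fun l => dot (eP (ε false * n false) (ε true * n true) l) (wN l))) = ε s * dg s k + 2 * n s := by
      cases s <;> [rcases hε false with r | r; rcases hε true with r | r] <;>
        simp [dg, eP, dot, Cut19.sw, r] <;> ring
    rw [this]
    push_cast
    ring

end Crest.Agent.X212.Mv17
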