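import Crest.Agent.X212.Nvg56.Cn
import Crest.Agent.X212.Weil93.Main
import Crest.Agent.X212.Gm56.Nck

/-!
# X212 / Mv17, part Cls (helper17): Mayer-Vietoris for spin^c classes

* `Ut`, `Lg`, `lg_of_hz` : smooth units, their arguments;
* `Spl`, `eqv_union`, `cls_inj` : a class is determined by its restrictions;
* `Gen`, `gen_of_loop` : generators of the units;
* `Gd`, `exists_gd`, `gd_of`, `Gd.eq_iff`, `tor_inj`, `tor_surj` : the classes glued from two modules.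
-/

set_option autoImplicit false
set_option linter.unusedSectionVars false

open Set Filter Topology Function Matrix
open scoped ContDiff Manifold
open Crest.Agent.X212.Lab56 Crest.Agent.X212.Pj41
open Crest.Agent.X212.Dr59 (HZ Cut exists_cut glue glue_left glue_right df)
open Crest.Agent.X212.Line51 (ang CSm cl_ang ang_exp ang_congr dg_ang)

noncomputable section

namespace Crest.Agent.X212.Mv17

variable {E : Type} [NormedAddCommGroup E] [NormedSpace ℝ E] [FiniteDimensional ℝ E]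
  {H : Type} [TopologicalSpace H] {I : ModelWithCorners ℝ E H}
  {M : Type} [TopologicalSpace M] [ChartedSpace H M] [IsManifold I ∞ M]
  {E' : Type} [NormedAddCommGroup E'] [NormedSpace ℝ E'] [FiniteDimensional ℝ E']
  {H' : Type} [TopologicalSpace H'] {I' : ModelWithCorners ℝ E' H'}
  {N : Type} [TopologicalSpace N] [ChartedSpace H' N] [IsManifold I' ∞ N]
  {ι ι' ι'' κ l n k : Type} [Fintype ι] [Fintype ι'] [Fintype ι''] [Fintype κ] [Fintype l] [Fintype n]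
  [DecidableEq ι] [DecidableEq ι'] [DecidableEq ι''] [DecidableEq κ] [DecidableEq l] [DecidableEq n]
  {O O' U V : Set M} {a b c c' : M → ℂ}

/-! ### units -/

variable (I) in
/-- a smooth unit -/
def Ut (c : M → ℂ) (O : Set M) : Prop := ∀ x ∈ O, FSm I c x ∧ ‖c x‖ = 1

variable (I) in
/-- a smooth argument exists -/
def Lg (c : M → ℂ) (O : Set M) : Prop := ∃ t : M → ℝ, ∀ x ∈ O, FSm I t x ∧ c x = Circle.exp (t x)

theorem Ut.mono (h : Ut I c O) (k : O' ⊆ O) : Ut I c O' := fun x hx => h x (k hx)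

theorem Ut.one : Ut I 1 O := fun _ _ => ⟨contMDiffAt_const, norm_one⟩

theorem Ut.mul (h : Ut I c O) (h' : Ut I c' O) : Ut I (c * c') O := fun x hx =>
  ⟨(h x hx).1.mul' (h' x hx).1, by rw [Pi.mul_apply, norm_mul, (h x hx).2, (h' x hx).2, one_mul]⟩

theorem Ut.ne (h : Ut I c O) {x : M} (hx : x ∈ O) : c x ≠ 0 :=
  norm_ne_zero_iff.1 (by rw [(h x hx).2]; exact one_ne_zero)

theorem Ut.inv (h : Ut I c O) : Ut I c⁻¹ O := fun x hx =>
  ⟨(contDiffAt_inv ℝ (h.ne hx)).comp_contMDiffAt (h x hx).1, by rw [Pi.inv_apply, norm_inv, (h x hx).2, inv_one]⟩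

theorem Ut.zpow (h : Ut I c O) (m : ℤ) : Ut I (c ^ m) O := by
  have k : ∀ j : ℕ, Ut I (c ^ j) O := fun j => by
    induction j with
    | zero => rw [pow_zero]; exact .one
    | succ j ih => rw [pow_succ]; exact ih.mul h
  cases m with
  | ofNat j => simpa using k j
  | negSucc j => rw [zpow_negSucc]; exact (k _).inv

theorem Ut.exp {t : M → ℝ} (h : ∀ x ∈ O, FSm I t x) : Ut I (fun x => (Circle.exp (t x) : ℂ)) O :=
  fun x hx => ⟨fsm_exp (h x hx), Circle.norm_coe _⟩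

theorem Ut.comp {f : N → M} {W : Set N} (h : Ut I c O) (hf : ∀ y ∈ W, ContMDiffAt I' I ∞ f y)
    (hm : MapsTo f W O) : Ut I' (c ∘ f) W := fun y hy => ⟨(h _ (hm hy)).1.comp y (hf y hy), (h _ (hm hy)).2⟩

theorem Ut.congr (h : Ut I c O) (hO : IsOpen O) (e : EqOn c' c O) : Ut I c' O := fun x hx =>
  ⟨(h x hx).1.congr_of_eventuallyEq (eventually_of_mem (hO.mem_nhds hx) e), by rw [e hx, (h x hx).2]⟩

theorem Lg.mono (h : Lg I c O) (k : O' ⊆ O) : Lg I c O' := h.imp fun _ e x hx => e x (k hx)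

theorem Lg.congr (h : Lg I c O) (e : EqOn c' c O) : Lg I c' O :=
  h.imp fun _ k x hx => ⟨(k x hx).1, (e hx).trans (k x hx).2⟩

theorem Lg.one : Lg I 1 O := ⟨0, fun _ _ => ⟨contMDiffAt_const, by simp⟩⟩

theorem Lg.mul (h : Lg I c O) (h' : Lg I c' O) : Lg I (c * c') O :=
  let ⟨t, e⟩ := h; let ⟨t', e'⟩ := h'
  ⟨t + t', fun x hx => ⟨(e x hx).1.add (e' x hx).1, by
    rw [Pi.mul_apply, (e x hx).2, (e' x hx).2, Pi.add_apply, Circle.exp_add, Circle.coe_mul]⟩⟩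

theorem Lg.inv (h : Lg I c O) : Lg I c⁻¹ O :=
  let ⟨t, e⟩ := h
  ⟨-t, fun x hx => ⟨(e x hx).1.neg, by rw [Pi.inv_apply, (e x hx).2, Pi.neg_apply, Circle.exp_neg, Circle.coe_inv]⟩⟩

theorem Lg.comp {f : N → M} {W : Set N} (h : Lg I c O) (hf : ∀ y ∈ W, ContMDiffAt I' I ∞ f y)
    (hm : MapsTo f W O) : Lg I' (c ∘ f) W :=
  let ⟨t, e⟩ := h; ⟨t ∘ f, fun y hy => ⟨(e _ (hm hy)).1.comp y (hf y hy), (e _ (hm hy)).2⟩⟩

theorem Lg.hasLog (h : Lg I c O) : Pic56.HasLog c O :=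
  let ⟨t, e⟩ := h
  ⟨fun x => t x * Complex.I, fun x hx => (((Complex.continuous_ofReal.continuousAt.comp
    (e x hx).1.continuousAt).mul continuousAt_const).continuousWithinAt), fun x hx => by
      rw [(e x hx).2, Circle.coe_exp]⟩

theorem Ut.lg (h : Ut I c O) (hO : IsOpen O) (k : Pic56.HasLog c O) : Lg I c O :=
  exists_arg hO (fun x hx => (h x hx).1) (fun x hx => (h x hx).2) k

/-- a unit whose values are locally constant -/
theorem lg_of_lc (h : ∀ x ∈ O, ‖c x‖ = 1) (e : ∀ x ∈ O, ∀ᶠ y in 𝓝 x, c y = c x) : Lg I c O :=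
  ⟨fun x => (c x).arg, fun x hx => ⟨(contMDiffAt_const (c := (c x).arg)).congr_of_eventuallyEq
    ((e x hx).mono fun y hy => congrArg Complex.arg hy), by
      rw [Circle.coe_exp, ← one_mul (Complex.exp _), ← Complex.ofReal_one, ← h x hx, Complex.norm_mul_exp_arg_mul_I]⟩⟩

variable [I.Boundaryless]

theorem Ut.loc (h : Ut I c O) (hO : IsOpen O) {x : M} (hx : x ∈ O) :
    ∃ W, Weil93.Nice I W ∧ x ∈ W ∧ W ⊆ O ∧ Lg I c W := by
  obtain ⟨L, hL⟩ := Cls19.exists_slog (I := I) (eventually_of_mem (hO.mem_nhds hx) fun y hy => (h y hy).1) (h.ne hx)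
  obtain ⟨W, w1, w2, w3⟩ := Weil93.exists_nice (I := I) x _ (hL.and (hO.mem_nhds hx))
  exact ⟨W, w2, mem_of_mem_nhds w1, fun y hy => (w3 hy).2, (h.mono fun y hy => (w3 hy).2).lg w2.op
    ⟨L, fun y hy => (w3 hy).1.1.continuousAt.continuousWithinAt, fun y hy => (w3 hy).1.2⟩⟩

/-- a unit as a circle valued map -/
theorem Ut.circ (h : Ut I c O) (hO : IsOpen O) : ∃ g : M → Circle, ∀ x ∈ O, CSm I g x ∧ (g x : ℂ) = c x := by
  have e : ∀ x ∈ O, (Circle.exp (c x).arg : ℂ) = c x := fun x hx => by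
    rw [Circle.coe_exp, ← one_mul (Complex.exp _), ← Complex.ofReal_one, ← (h x hx).2,
      Complex.norm_mul_exp_arg_mul_I]
  refine ⟨fun x => Circle.exp (c x).arg, fun x hx => ⟨?_, e x hx⟩⟩
  obtain ⟨W, w1, w2, w3, t, ht⟩ := h.loc hO hx
  exact ((contMDiff_circleExp _).comp x (ht x w2).1).congr_of_eventuallyEq
    (eventually_of_mem (w1.op.mem_nhds w2) fun y hy => Circle.ext ((e y (w3 hy)).trans (ht y hy).2))

/-- a circle valued map with exact angular form has an argument -/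
theorem lg_of_ex (hO : IsOpen O) {g : M → Circle} (hg : ∀ x ∈ O, CSm I g x) (h : Dr59.Ex I O (ang I g)) :
    Lg I (fun x => (g x : ℂ)) O := by
  obtain ⟨f, hf⟩ := Weil93.exists_df hO h (dg_ang g)
  have u : Ut I (fun x => (g x : ℂ)) O := fun x hx =>
    ⟨(Line51.contMDiff_coe _).comp x (hg x hx), Circle.norm_coe _⟩
  have e := Ut.exp (I := I) fun x hx => (hf x hx).1
  have k : Lg I ((fun x => (g x : ℂ)) * (fun x => (Circle.exp (f x) : ℂ))⁻¹) O :=
    lg_of_lc (fun x hx => ((u.mul e.inv) x hx).2) fun x hx => by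
      obtain ⟨W, w1, w2, w3, t, ht⟩ := u.loc hO hx
      obtain ⟨r, hr⟩ := Weil93.const_of_df (I := I) (f := t - f) w1.op w1.pc fun y hy =>
        ⟨(ht y hy).1.sub (hf y (w3 hy)).1, by
          rw [Dr59.df_sub (ht y hy).1 (hf y (w3 hy)).1, (hf y (w3 hy)).2, ← ang_exp (ht y hy).1,
            ang_congr (g := g) (eventually_of_mem (w1.op.mem_nhds hy) fun z hz => Circle.ext (ht z hz).2),
            sub_self]⟩
      have q : ∀ y ∈ W, ((fun x => (g x : ℂ)) * (fun x => (Circle.exp (f x) : ℂ))⁻¹) y = Circle.exp r :=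
        fun y hy => by
          rw [← hr y hy, Pi.sub_apply, Circle.exp_sub, Circle.coe_div, ← (ht y hy).2, div_eq_mul_inv]; rfl
      exact eventually_of_mem (w1.op.mem_nhds w2) fun y hy => (q y hy).trans (q x w2).symm
  exact (k.mul ⟨f, fun x hx => ⟨(hf x hx).1, rfl⟩⟩).congr fun x _ => by
    simp only [Pi.mul_apply, Pi.inv_apply]
    rw [inv_mul_cancel_right₀ (Circle.coe_ne_zero _)]

/-- **units have arguments if `b₁ = 0`** -/
theorem lg_of_hz (hO : IsOpen O) (h : HZ I 1 O) (hc : Ut I c O) : Lg I c O := by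
  obtain ⟨g, hg⟩ := hc.circ hO
  exact (lg_of_ex hO (fun x hx => (hg x hx).1) (h _ (cl_ang fun x hx => (hg x hx).1))).congr
    fun x hx => (hg x hx).2.symm

/-! ### splitting of units -/

variable (I) in
/-- the unit `c` of the overlap is a quotient of units of `U` and `V` -/
def Sq (U V : Set M) (c : M → ℂ) : Prop := ∃ a b, Ut I a U ∧ Ut I b V ∧ ∀ x ∈ U ∩ V, a x = b x * c x

variable (I) in
/-- all units of the overlap split -/
def Spl (U V : Set M) : Prop := ∀ c, Ut I c (U ∩ V) → Sq I U V c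

theorem Sq.congr (h : Sq I U V c) (e : EqOn c' c (U ∩ V)) : Sq I U V c' :=
  let ⟨a, b, h1, h2, h3⟩ := h; ⟨a, b, h1, h2, fun x hx => by rw [h3 x hx, e hx]⟩

theorem Sq.mul (h : Sq I U V c) (h' : Sq I U V c') : Sq I U V (c * c') :=
  let ⟨a, b, h1, h2, h3⟩ := h; let ⟨a', b', k1, k2, k3⟩ := h'
  ⟨a * a', b * b', h1.mul k1, h2.mul k2, fun x hx => by
    simp only [Pi.mul_apply]; rw [h3 x hx, k3 x hx]; ring⟩

theorem Sq.inv (h : Sq I U V c) : Sq I U V c⁻¹ :=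
  let ⟨a, b, h1, h2, h3⟩ := h
  ⟨a⁻¹, b⁻¹, h1.inv, h2.inv, fun x hx => by simp only [Pi.inv_apply]; rw [h3 x hx, mul_inv]⟩

theorem Sq.left (h : Ut I c U) : Sq I U V c := ⟨c, 1, h, .one, fun _ _ => (one_mul _).symm⟩

theorem Sq.right (h : Ut I c V) : Sq I U V c :=
  ⟨1, c⁻¹, .one, h.inv, fun _ hx => (inv_mul_cancel₀ (h.ne hx.2)).symm⟩

theorem fsm_cz {χ t : M → ℝ} {X W : Set M} (h : Dr59.Cz I X W χ) (ht : ∀ x ∈ W, FSm I t x) :
    ∀ x ∈ X, FSm I (χ * t) x := fun x hx => by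
  by_cases hw : x ∈ W
  · exact (h.sm x hx).mul (ht x hw)
  · exact (contMDiffAt_const (c := (0 : ℝ))).congr_of_eventuallyEq
      ((h.z x hx hw).mono fun y hy => by rw [Pi.mul_apply, hy]; exact zero_mul _)

variable [T2Space M] [SigmaCompactSpace M]

theorem Lg.sq (hU : IsOpen U) (hV : IsOpen V) (h : Lg I c (U ∩ V)) : Sq I U V c := by
  obtain ⟨t, ht⟩ := h
  obtain ⟨χ, hχ⟩ := exists_cut (I := I) hU hV
  refine ⟨_, _, .exp (fsm_cz hχ.czU fun x hx => (ht x hx).1),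
    (Ut.exp (fsm_cz hχ.czV fun x hx => (ht x hx).1)).inv, fun x hx => ?_⟩
  rw [(ht x hx).2, Pi.inv_apply, ← Circle.coe_inv, ← Circle.coe_mul, ← Circle.exp_neg, ← Circle.exp_add]
  congr 2
  simp only [Pi.mul_apply, Pi.sub_apply, Pi.one_apply]
  ring

theorem spl_of_hz (hU : IsOpen U) (hV : IsOpen V) (h : HZ I 1 (U ∩ V)) : Spl I U V :=
  fun _ hc => (lg_of_hz (hU.inter hV) h hc).sq hU hV

variable (I) in
/-- every unit of `O` is a power of `g` up to an exponential -/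
def Gen (g : M → ℂ) (O : Set M) : Prop := Ut I g O ∧ ∀ c, Ut I c O → ∃ m : ℤ, Lg I (c * (g ^ m)⁻¹) O

theorem Gen.sq (hU : IsOpen U) (hV : IsOpen V) {g : M → ℂ} (h : Gen I g (U ∩ V)) (hc : Ut I c (U ∩ V)) :
    ∃ m : ℤ, Sq I U V (c * (g ^ m)⁻¹) := (h.2 c hc).imp fun _ k => k.sq hU hV

theorem Sq.zpow (h : Sq I U V c) (m : ℤ) : Sq I U V (c ^ m) :=
  let ⟨a, b, h1, h2, h3⟩ := h
  ⟨a ^ m, b ^ m, h1.zpow m, h2.zpow m, fun x hx => by simp only [Pi.pow_apply]; rw [h3 x hx, mul_zpow]⟩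

/-- the generator extends over one side -/
theorem Gen.spl (hU : IsOpen U) (hV : IsOpen V) {g : M → ℂ} (h : Gen I g (U ∩ V)) (k : Sq I U V g) :
    Spl I U V := fun c hc =>
  let ⟨m, e⟩ := h.sq hU hV hc
  (e.mul (k.zpow m)).congr fun x hx => by
    simp only [Pi.mul_apply, Pi.inv_apply]
    rw [inv_mul_cancel_right₀ ((h.1.zpow m).ne hx)]

theorem Sq.lg (hU : IsOpen U) (hV : IsOpen V) (h1 : HZ I 1 U) (h2 : HZ I 1 V) (h : Sq I U V c) :
    Lg I c (U ∩ V) :=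
  let ⟨_, _, k1, k2, k3⟩ := h
  (((lg_of_hz hU h1 k1).mono inter_subset_left).mul ((lg_of_hz hV h2 k2).mono inter_subset_right).inv).congr
    fun x hx => by
      simp only [Pi.mul_apply, Pi.inv_apply]
      rw [k3 x hx, mul_comm, inv_mul_cancel_left₀ (k2.ne hx.2)]

theorem sl_of_hz (hO : IsOpen O) (h : HZ I 1 O) : Gm56.SL I O := fun _ hc => by
  simpa only [Lg, Circle.coe_exp] using lg_of_hz hO h hc

theorem spl_of_sl (hU : IsOpen U) (hV : IsOpen V) (h : Gm56.SL I (U ∩ V)) : Spl I U V := fun c hc =>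
  Lg.sq hU hV (by simpa only [Lg, Circle.coe_exp] using h c hc)

omit [T2Space M] [SigmaCompactSpace M] in
theorem Lg.ex {g : M → Circle} (hO : IsOpen O) (h : Lg I (fun x => (g x : ℂ)) O) : Dr59.Ex I O (ang I g) :=
  let ⟨_, e⟩ := h
  (Dr59.ex_df fun x hx => (e x hx).1).congr fun x hx => by
    rw [← ang_exp (e x hx).1]
    exact ang_congr (eventually_of_mem (hO.mem_nhds hx) fun y hy => Circle.ext (e y hy).2)

omit [T2Space M] [SigmaCompactSpace M] [I.Boundaryless] in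
/-- no power of a unit with a section has an argument -/
theorem not_lg {g : M → ℂ} {γ : Circle → M} (hγ : Continuous γ) (hm : ∀ z, γ z ∈ O) (e : ∀ z, g (γ z) = z)
    {m : ℤ} (h : Lg I (g ^ m) O) : m = 0 :=
  Pic56.deg_unique ((h.hasLog.comp (T := univ) hγ.continuousOn fun z _ => hm z).congr fun z _ => by
    simp only [Pi.pow_apply, e])

omit [T2Space M] [SigmaCompactSpace M] in
/-- **a unit with a section generates if `b₁ ≤ 1`** -/
theorem gen_of_loop (hO : IsOpen O) (hb : Dr59.Bd I 1 O 1) {g : M → ℂ} (hg : Ut I g O) {γ : Circle → M}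
    (hγ : ContMDiff (𝓡 1) I ∞ γ) (hm : ∀ z, γ z ∈ O) (e : ∀ z, g (γ z) = z) : Gen I g O := by
  refine ⟨hg, fun c hc => ?_⟩
  obtain ⟨m, hj⟩ := Pic56.exists_deg_circle (φ := c ∘ γ)
    (continuous_iff_continuousAt.2 fun z => (hc _ (hm z)).1.continuousAt.comp hγ.continuous.continuousAt)
    fun z => hc.ne (hm z)
  have u := hc.mul (hg.zpow m).inv
  obtain ⟨G, hG⟩ := hg.circ hO
  obtain ⟨C, hC⟩ := u.circ hO
  have mp : Dr59.Mp (𝓡 1) I univ O γ := ⟨fun z _ => hγ z, fun z _ => hm z⟩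
  have key : ∀ r : ℝ, Dr59.Ex (𝓡 1) univ (r • Dr59.pm (𝓡 1) I γ (ang I G)) → r = 0 := fun r k => by
    by_contra h0
    have k1 : Dr59.Ex (𝓡 1) univ (ang (𝓡 1) (id : Circle → Circle)) := (k.smul r⁻¹).congr fun z _ => by
      rw [inv_smul_smul₀ h0, Line51.pm_ang (hG _ (hm z)).1 ((hγ z).mdifferentiableAt (by simp))]
      exact congrArg (ang _ · z) (funext fun w => Circle.ext (((hG _ (hm w)).2.trans (e w)).symm))
    exact one_ne_zero (Pic56.deg_unique (j := 1) ((lg_of_ex isOpen_univ (fun _ _ => contMDiffAt_id) k1).hasLog.congr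
      fun z _ => zpow_one _))
  have cG := cl_ang fun x hx => (hG x hx).1
  have cC := cl_ang fun x hx => (hC x hx).1
  obtain ⟨r, hr⟩ := Dr59.Bd.span (ι := Unit) hb (e := fun _ => cG.cls) (fun r k _ => key _ (by
    rw [Fintype.sum_unique, ← Dr59.cls_smul, Dr59.cls_eq_zero] at k
    simpa only [Dr59.pm_smul] using k.pm mp)) cC.cls
  rw [Fintype.sum_unique, ← Dr59.cls_smul, Dr59.cls_eq] at hr
  have l : Lg (𝓡 1) (fun z => (C (γ z) : ℂ)) univ :=
    Ut.lg (fun z _ => ⟨(Line51.contMDiff_coe _).comp z ((hC _ (hm z)).1.comp z (hγ z)), Circle.norm_coe _⟩)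
      isOpen_univ (hj.congr fun z _ => by simp only [(hC _ (hm z)).2, Pi.mul_apply, Pi.inv_apply, Pi.pow_apply, e,
        Function.comp_apply])
  have r0 : r default = 0 := key _ (((hr.pm mp).add (Lg.ex (g := C ∘ γ) isOpen_univ l)).congr fun z _ => by
    rw [Pi.add_apply, ← Line51.pm_ang (hC _ (hm z)).1 ((hγ z).mdifferentiableAt (by simp)), Dr59.pm_sub,
      Dr59.pm_smul, Pi.sub_apply, sub_add_cancel])
  rw [r0, zero_smul, zero_sub] at hr
  exact ⟨m, (lg_of_ex hO (fun x hx => (hC x hx).1) (by simpa using hr.neg)).congr fun x hx => (hC x hx).2.symm⟩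

omit [T2Space M] [SigmaCompactSpace M] [I.Boundaryless] in
/-- transport of generators -/
theorem Gen.comp {g : N → ℂ} {W : Set N} {f : N → M} {j : M → N} (h : Gen I' g W)
    (hf : ∀ y ∈ W, ContMDiffAt I' I ∞ f y) (mf : MapsTo f W O) (hj : ∀ x ∈ O, ContMDiffAt I I' ∞ j x)
    (mj : MapsTo j O W) (e : ∀ x ∈ O, f (j x) = x) : Gen I (g ∘ j) O :=
  ⟨h.1.comp hj mj, fun c hc => (h.2 _ (hc.comp hf mf)).imp fun _ k => (k.comp hj mj).congr fun x hx => by
    simp only [Function.comp_apply, Pi.mul_apply, Pi.inv_apply, Pi.pow_apply, e x hx]⟩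

omit [T2Space M] [SigmaCompactSpace M] [I.Boundaryless] in
theorem Gen.congr {g g' : M → ℂ} (h : Gen I g O) (hO : IsOpen O) (e : EqOn g' g O) : Gen I g' O :=
  ⟨h.1.congr hO e, fun c hc => (h.2 c hc).imp fun _ k => k.congr fun x hx => by
    simp only [Pi.mul_apply, Pi.inv_apply, Pi.pow_apply, e hx]⟩

omit [T2Space M] [SigmaCompactSpace M] [I.Boundaryless] in
/-- a unit of a cylinder is its slice up to an exponential -/
theorem lg_slice {J : Set ℝ} (hJ : IsOpen J) (hc : OrdConnected J) {s : ℝ} (hs : s ∈ J) {c : M × ℝ → ℂ}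
    (h : Ut (I.prod 𝓘(ℝ, ℝ)) c (univ ×ˢ J)) :
    Lg (I.prod 𝓘(ℝ, ℝ)) (c * (fun z => c (z.1, s))⁻¹) (univ ×ˢ J) :=
  (Gm56.exists_slice hJ hc hs h).imp fun r k z hz => ⟨(k z hz).1, by
    rw [Pi.mul_apply, (k z hz).2, Pi.inv_apply, mul_comm, inv_mul_cancel_left₀ (h.ne (x := (z.1, s)) ⟨trivial, hs⟩),
      Circle.coe_exp]⟩

omit [T2Space M] [SigmaCompactSpace M] [I.Boundaryless] in
theorem Gen.cyl {g : M → ℂ} (h : Gen I g univ) {J : Set ℝ} (hJ : IsOpen J) (hc : OrdConnected J) :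
    Gen (I.prod 𝓘(ℝ, ℝ)) (g ∘ Prod.fst) (univ ×ˢ J) := by
  refine ⟨h.1.comp (fun _ _ => contMDiffAt_fst) (mapsTo_univ _ _), fun c k => ?_⟩
  rcases J.eq_empty_or_nonempty with rfl | ⟨s, hs⟩
  · exact ⟨0, 0, fun z hz => hz.2.elim⟩
  obtain ⟨m, e⟩ := h.2 _ (k.comp (f := fun y => (y, s)) (W := univ)
    (fun _ _ => contMDiffAt_id.prodMk contMDiffAt_const) fun _ _ => ⟨trivial, hs⟩)
  exact ⟨m, ((lg_slice hJ hc hs k).mul (e.comp (f := Prod.fst) (fun _ _ => contMDiffAt_fst)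
    (mapsTo_univ _ _))).congr fun z _ => by
      simp only [Function.comp_apply, Pi.mul_apply, Pi.inv_apply, Pi.pow_apply]
      rw [mul_assoc, inv_mul_cancel_left₀ (k.ne (x := (z.1, s)) ⟨trivial, hs⟩)]⟩

/-! ### classes -/

variable {d : Sc I M ι κ} {d' : Sc I M ι' l} {u w : M → Matrix l κ ℂ}

theorem iw_smul (i : Iw d d' u O) (h : Ut I c O) : Iw d d' (fun x => c x • u x) O :=
  CI.smul' i (fun x hx => (h x hx).1) fun x hx => (h x hx).2

theorem iw_glue (hU : IsOpen U) (hV : IsOpen V) (i : Iw d d' u U) (j : Iw d d' w V) (e : EqOn u w (U ∩ V)) :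
    Iw d d' (glue U u w) (U ∪ V) :=
  have i' := i.congr hU (glue_left (a := u) (b := w))
  have j' := j.congr hV (glue_right e)
  ⟨fun x hx => hx.elim (i'.sm x) (j'.sm x), fun x hx => hx.elim (i'.un x) (j'.un x)⟩

theorem eqv_of_sq (hU : IsOpen U) (hV : IsOpen V) (i : Iw d d' u U) (j : Iw d d' w V)
    (e : ∀ x ∈ U ∩ V, u x = c x • w x) (h : Sq I U V c) : Eqv d d' (U ∪ V) :=
  let ⟨_, _, h1, h2, h3⟩ := h.inv
  ⟨_, iw_glue hU hV (iw_smul i h1) (iw_smul j h2) fun x hx => by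
    have k : c x ≠ 0 := fun z => h1.ne hx.1 (by rw [h3 x hx, Pi.inv_apply, z, _root_.inv_zero, mul_zero])
    rw [h3 x hx, e x hx, smul_smul, Pi.inv_apply, inv_mul_cancel_right₀ k]⟩

theorem ratio (h : d.On O) (h' : d'.On O) (i : Iw d d' u O) (j : Iw d d' w O) :
    ∃ c, Ut I c O ∧ ∀ x ∈ O, w x = c x • u x :=
  let ⟨c, e⟩ := i.ratio h h' j
  ⟨c, fun x hx => ⟨(e x hx).1, (e x hx).2.1⟩, fun x hx => (e x hx).2.2⟩

theorem eqv_union (hU : IsOpen U) (hV : IsOpen V) (s : Spl I U V) (h : d.On (U ∩ V)) (h' : d'.On (U ∩ V))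
    (i : Eqv d d' U) (j : Eqv d d' V) : Eqv d d' (U ∪ V) := by
  obtain ⟨u, i⟩ := i
  obtain ⟨w, j⟩ := j
  obtain ⟨c, k, e⟩ := ratio h h' (j.mono inter_subset_right) (i.mono inter_subset_left)
  exact eqv_of_sq hU hV i j e (s c k)

/-- **a class is determined by its two restrictions** -/
theorem cls_inj (hU : IsOpen U) (hV : IsOpen V) (hc : O ⊆ U ∪ V) (s : Spl I U V) (h1 : U ⊆ O) (h2 : V ⊆ O)
    {p q : Cls I O} (e : p.res h1 = q.res h1) (e' : p.res h2 = q.res h2) : p = q := by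
  obtain ⟨p⟩ := p
  obtain ⟨q⟩ := q
  exact Quot.sound ((eqv_union hU hV s (p.ok.mono (inter_subset_left.trans h1))
    (q.ok.mono (inter_subset_left.trans h1)) ((mk_eq_iff hU).1 e) ((mk_eq_iff hV).1 e')).mono hc)

/-! ### gluing with a transition function -/

section gd

open Crest.Agent.X212.Gm56 (Rp LE)
open Crest.Agent.X212.Met55 (VF fP)

variable {P : M → Matrix ι ι ℝ} {e : ι → VF I M} {m₁ m₂ : C8 M ι κ} {g : C8 M ι l} {g' : C8 M ι n}
  {p q : Cls I (univ : Set M)}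

variable (I) in
/-- `g` is glued from `m₁` on `U` and `m₂` on `V` with the transition function `c` -/
def Gd (U V : Set M) (m₁ m₂ : C8 M ι κ) (c : M → ℂ) (g : C8 M ι l) : Prop :=
  ∃ a b, CI I m₁ g a U ∧ CI I m₂ g b V ∧ ∀ x ∈ U ∩ V, a x = c x • b x

theorem ci_smul {m : C8 M ι κ} {u : M → Matrix l κ ℂ} (i : CI I m g u O) (h : Ut I c O) :
    CI I m g (fun x => c x • u x) O := i.smul' (fun x hx => (h x hx).1) fun x hx => (h x hx).2

theorem exists_gd (hU : IsOpen U) (hV : IsOpen V) (hc : U ∪ V = univ) (h₁ : m₁.On I P U) (h₂ : m₂.On I P V)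
    (r : LE m₁ m₂ (U ∩ V)) (k : Ut I c (U ∩ V)) : ∃ g : C8 M ι (κ ⊕ κ), g.On I P univ ∧ Gd I U V m₁ m₂ c g := by
  obtain ⟨g, a, b, g1, g2, g3, g4⟩ := C8.exists_glue hU hV hc h₁ h₂
    (ci_smul (r.ci (h₁.mono inter_subset_left)) k)
  exact ⟨g, g1, a, b, g2, g3, fun x hx => by
    rw [← g4 x hx, Matrix.mul_smul, ← (r x hx).1, (g3.un x hx.2).iso.idem]⟩

theorem gd_of (h₂ : m₂.On I P V) (r : LE m₁ m₂ (U ∩ V)) (hg : g.On I P univ)
    {a b : M → Matrix l κ ℂ} (i : CI I m₁ g a U) (j : CI I m₂ g b V) : ∃ c, Ut I c (U ∩ V) ∧ Gd I U V m₁ m₂ c g :=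
  let ⟨c, k⟩ := Gm56.CI.ratio (h₂.mono inter_subset_right) (hg.mono (subset_univ _)) (j.mono inter_subset_right)
    ((i.mono inter_subset_left).of_eq r fun _ _ => ⟨rfl, rfl⟩)
  ⟨c, fun x hx => ⟨(k x hx).1, (k x hx).2.1⟩, a, b, i, j, fun x hx => (k x hx).2.2⟩

theorem Gd.ci (h : Gd I U V m₁ m₂ c g) {w : M → Matrix n l ℂ} (i : CI I g g' w univ) : Gd I U V m₁ m₂ c g' :=
  let ⟨_, _, h1, h2, h3⟩ := h
  ⟨_, _, h1.trans (i.mono (subset_univ _)), h2.trans (i.mono (subset_univ _)), fun x hx => by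
    rw [h3 x hx, Matrix.mul_smul]⟩

theorem Gd.sq (h : Gd I U V m₁ m₂ c g) (k : Sq I U V c') : Gd I U V m₁ m₂ (c' * c) g :=
  let ⟨_, _, h1, h2, h3⟩ := h; let ⟨_, _, k1, k2, k3⟩ := k
  ⟨_, _, ci_smul h1 k1, ci_smul h2 k2, fun x hx => by
    rw [h3 x hx, k3 x hx, smul_smul, smul_smul, Pi.mul_apply]; congr 1; ring⟩

theorem Gd.iso (hU : IsOpen U) (hV : IsOpen V) (hc : U ∪ V = univ) (h₁ : m₁.On I P U) (h₂ : m₂.On I P V)
    (hg : g.On I P univ) (k : Ut I c (U ∩ V)) (h : Gd I U V m₁ m₂ c g) (h' : Gd I U V m₁ m₂ c g') :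
    ∃ w, CI I g g' w univ := by
  obtain ⟨a, b, h1, h2, h3⟩ := h
  obtain ⟨a', b', k1, k2, k3⟩ := h'
  have i := (h1.symm h₁ (hg.mono (subset_univ _))).trans k1
  have j := (h2.symm h₂ (hg.mono (subset_univ _))).trans k2
  have e : EqOn (fun x => a' x * (a x)ᴴ) (fun x => b' x * (b x)ᴴ) (U ∩ V) := fun x hx => by
    simp only [h3 x hx, k3 x hx, conjTranspose_smul, Matrix.smul_mul, Matrix.mul_smul, smul_smul]
    rw [Complex.star_def, Complex.conj_mul', (k x hx).2]; simp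
  have i' := i.congr hU (glue_left (b := fun x => b' x * (b x)ᴴ))
  have j' := j.congr hV (glue_right e)
  exact ⟨_, fun x _ => (hc.ge (mem_univ x)).elim (i'.sm x) (j'.sm x),
    fun x _ => (hc.ge (mem_univ x)).elim (i'.un x) (j'.un x)⟩

theorem Gd.uniq (h₁ : m₁.On I P U) (h₂ : m₂.On I P V) (hg : g.On I P univ) (k : Ut I c (U ∩ V))
    (h : Gd I U V m₁ m₂ c g) (h' : Gd I U V m₁ m₂ c' g) : Sq I U V (c' * c⁻¹) := by
  obtain ⟨a, b, h1, h2, h3⟩ := h
  obtain ⟨a', b', k1, k2, k3⟩ := h'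
  obtain ⟨α, e1⟩ := Gm56.CI.ratio h₁ (hg.mono (subset_univ _)) h1 k1
  obtain ⟨β, e2⟩ := Gm56.CI.ratio h₂ (hg.mono (subset_univ _)) h2 k2
  refine ⟨α, β, fun x hx => ⟨(e1 x hx).1, (e1 x hx).2.1⟩, fun x hx => ⟨(e2 x hx).1, (e2 x hx).2.1⟩, fun x hx => ?_⟩
  have e := k3 x hx
  rw [(e1 x hx.1).2.2, (e2 x hx.2).2.2, h3 x hx, smul_smul, smul_smul] at e
  have b0 : b x ≠ 0 := fun z => by
    have t := (h₂.pc x hx.2).tr
    rw [← (h2.un x hx.2).iso.src, z] at t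
    simp at t
  rw [Pi.mul_apply, Pi.inv_apply, ← mul_assoc, mul_comm (β x), ← smul_left_injective ℂ b0 e,
    mul_inv_cancel_right₀ (k.ne hx)]

/-- **two glued classes agree iff the quotient of the transition functions splits** -/
theorem Gd.eq_iff (hU : IsOpen U) (hV : IsOpen V) (hc : U ∪ V = univ) (h₁ : m₁.On I (fP e) U)
    (h₂ : m₂.On I (fP e) V) (k : Ut I c (U ∩ V)) (k' : Ut I c' (U ∩ V)) (h : Gd I U V m₁ m₂ c g)
    (h' : Gd I U V m₁ m₂ c' g') (a : Rp e g p) (a' : Rp e g' q) : p = q ↔ Sq I U V (c' * c⁻¹) := by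
  refine ⟨fun r => ?_, fun s => ?_⟩
  · obtain ⟨w, i⟩ := a.ci (r ▸ a')
    exact (h.ci i).uniq h₁ h₂ a'.on k h'
  · obtain ⟨α, β, h1, h2, h3⟩ := h.sq s
    obtain ⟨w, i⟩ := Gd.iso hU hV hc h₁ h₂ a.on k' ⟨α, β, h1, h2, fun x hx => by
      rw [h3 x hx, Pi.mul_apply, Pi.mul_apply, Pi.inv_apply, inv_mul_cancel_right₀ (k.ne hx)]⟩ h'
    exact (a.of_ci a'.on i).uniq a'

variable {u : M → ℂ} {G : ℤ → C8 M ι l} {D : ℤ → Cls I (univ : Set M)}

/-- the classes glued with the powers of `u` are different -/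
theorem tor_inj (hU : IsOpen U) (hV : IsOpen V) (hc : U ∪ V = univ) (h₁ : m₁.On I (fP e) U)
    (h₂ : m₂.On I (fP e) V) (k : Ut I u (U ∩ V)) (ns : ∀ j : ℤ, Sq I U V (u ^ j) → j = 0)
    (h : ∀ j, Gd I U V m₁ m₂ (u ^ j) (G j)) (a : ∀ j, Rp e (G j) (D j)) : Injective D := fun i j r =>
  (sub_eq_zero.1 (ns (j - i) ((((h i).eq_iff hU hV hc h₁ h₂ (k.zpow i) (k.zpow j) (h j) (a i) (a j)).1 r).congr
    fun x hx => by simp only [Pi.mul_apply, Pi.inv_apply, Pi.pow_apply]; rw [zpow_sub₀ (k.ne hx), div_eq_mul_inv]))).symm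

/-- every class with the two restrictions is glued with a power of the generator -/
theorem tor_surj (hU : IsOpen U) (hV : IsOpen V) (hc : U ∪ V = univ) (h₁ : m₁.On I (fP e) U)
    (h₂ : m₂.On I (fP e) V) (r : LE m₁ m₂ (U ∩ V)) (k : Gen I u (U ∩ V))
    (h : ∀ j, Gd I U V m₁ m₂ (u ^ j) (G j)) (a : ∀ j, Rp e (G j) (D j)) (b : Rp e g' p)
    (i : ∃ α, CI I m₁ g' α U) (i' : ∃ β, CI I m₂ g' β V) : ∃ j, D j = p := by
  obtain ⟨α, i⟩ := i
  obtain ⟨β, i'⟩ := i'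
  obtain ⟨c, k1, k2⟩ := gd_of h₂ r b.on i i'
  exact (k.sq hU hV k1).imp fun j s => ((h j).eq_iff hU hV hc h₁ h₂ (k.1.zpow j) k1 k2 (a j) b).2 s

end gd

end Crest.Agent.X212.Mv17
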