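import Crest.Agent.X212.Mv17.Cl
import Crest.Agent.X212.Nv5.Cyl

/-!
# X212 / Mv17, part Pun (helper17): `Geo28.PunStmt`

* `ncOf`, `sub`, `ncU` : charts of necks from maps, open submanifolds;  `pc_compl` : punctured spaces;
* `exists_pol` : positive polar coordinates;  `punStmt`.
-/

set_option autoImplicit false
set_option linter.unusedSectionVars false

open Set Filter Topology Function Metric TopologicalSpace
open scoped ContDiff Manifold
open Crest.Agent.X212.Bor5.T Crest.Agent.X212.Geo28 Crest.Agent.X212.Cyl58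
open Crest.Agent.X212.Dr59 (Cs pm psh)
open Crest.Agent.X212.Rod53 (E4 ld_pd pdOn)
open Crest.Agent.X212.Orx52 (Pos oR oriOn ori_pr ori_oR)
open Crest.Agent.X212.M (Mf)

noncomputable section

namespace Crest.Agent.X212.Mv17

theorem pc_compl {Z : Type*} [TopologicalSpace Z] [PreconnectedSpace Z] [T1Space Z] {p : Z} {B : Set Z}
    (hB : IsOpen B) (hp : p ∈ B) (h : IsPreconnected (B \ {p})) : IsPreconnected ({p}ᶜ : Set Z) := by
  have key : ∀ u v : Set Z, IsOpen u → IsOpen v → {p}ᶜ ⊆ u ∪ v → {p}ᶜ ∩ (u ∩ v) = ∅ → B \ {p} ⊆ u →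
      {p}ᶜ ⊆ u ∨ {p}ᶜ ⊆ v := fun u v hu hv c e k => .inl fun x hx => by_contra fun hx' => by
    obtain ⟨y, -, a, b, b'⟩ := isPreconnected_univ (u ∪ B) (v ∩ {p}ᶜ) (hu.union hB) (hv.inter isOpen_compl_singleton)
      (fun y _ => (em (y = p)).elim (fun e => .inl (.inr (e ▸ hp))) fun e => (c e).imp .inl (⟨·, e⟩))
      ⟨p, trivial, .inr hp⟩ ⟨x, trivial, (c hx).resolve_left hx', hx⟩
    exact (e.le ⟨b', a.elim id fun a => k ⟨a, b'⟩, b⟩ :)
  refine isPreconnected_iff_subset_of_disjoint.2 fun u v hu hv c e => ?_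
  rcases isPreconnected_iff_subset_of_disjoint.1 h u v hu hv (fun x hx => c hx.2)
    (eq_empty_of_subset_empty fun x hx => e.le ⟨hx.1.2, hx.2⟩) with k | k
  · exact key u v hu hv c e k
  · exact (key v u hv hu (union_comm u v ▸ c) (inter_comm u v ▸ e) k).symm

theorem contAt_ext {Z V : Type*} [TopologicalSpace Z] [T2Space Z] [TopologicalSpace V] {f : V → Z}
    (hf : IsOpenEmbedding f) {K : Set V} (hK : IsCompact K) {g : V → ℝ} (h0 : ∀ x ∉ K, g x = 0) {p : Z}
    (h : ∀ x, f x = p → ContinuousAt g x) : ContinuousAt (extend f g 0) p := by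
  by_cases e : ∃ x, f x = p
  · obtain ⟨x, rfl⟩ := e
    rw [← hf.continuousAt_iff, extend_comp hf.injective]
    exact h x rfl
  · refine (continuousAt_const (y := (0 : ℝ))).congr (eventually_of_mem
      ((hK.image hf.continuous).isClosed.isOpen_compl.mem_nhds fun ⟨x, _, k⟩ => e ⟨x, k⟩) fun q hq => ?_)
    by_cases e' : ∃ x, f x = q
    · obtain ⟨x, rfl⟩ := e'
      rw [hf.injective.extend_apply, h0 x fun k => hq ⟨x, k, rfl⟩]
    · exact (extend_apply' g (0 : Z → ℝ) q e').symm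

section nc

variable {A : O3} {X : M4} {J : Set ℝ} (hJ : IsOpen J) (hn : J.Nonempty) (j : A.Y.M × ℝ → X.M)
  (ld : ∀ z ∈ univ ×ˢ J, IsLocalDiffeomorphAt (IY A) X.I ∞ j z) (inj : InjOn j (univ ×ˢ J))
  (pos : Pos (IY A) X.I j (univ ×ˢ J) (Orx52.pr A.o oR) X.o) (tm : X.M → ℝ) (tmk : ∀ z ∈ univ ×ˢ J, tm (j z) = z.2)

/-- the chart of a map -/
def ncOf (cont : Continuous tm) (sur : ∀ p, tm p ∈ J → p ∈ j '' univ ×ˢ J) : Nc A X J where
  k := pdOn (isOpen_univ.prod hJ) (univ_nonempty.prod hn) ld inj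
  tm := tm
  cont := cont
  src := rfl
  tgt := Subset.antisymm (image_subset_iff.2 fun z hz => mem_of_eq_of_mem (s := J) (tmk z hz) hz.2) sur
  tmk := tmk
  pos := pos

variable (U : Opens X.M) (hU : IsConnected (U : Set X.M))

theorem ori_val : Int54.Ori X.I (pm X.I X.I (Subtype.val : U → X.M) X.o) := Orx52.ori_pm X.ori (isOE_val U).loc

/-- an open submanifold -/
abbrev sub : M4 :=
  { X := Mf.of 4 X.I U X.X.dim, con := isConnected_iff_connectedSpace.1 hU,
    o := pm X.I X.I (Subtype.val : U → X.M) X.o, ori := ori_val U }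

/-- the inclusion -/
def inc : PartialDiffeomorph X.I X.I U X.M ∞ :=
  have := hU.nonempty.to_subtype
  (isOE_val U).pd

theorem inc_tgt : (inc U hU).target = U := Subtype.range_coe

theorem val_inc {p : X.M} (hp : p ∈ U) : ((inc U hU).symm p : X.M) = p := (inc U hU).right_inv ((inc_tgt U hU).ge hp)

theorem pos_val (s : Set U) : Pos X.I X.I Subtype.val s (sub U hU).o X.o :=
  Orx52.pos_pm (oriOn X.ori univ) (fun y _ => (isOE_val U).loc y) (mapsTo_univ _ _)

theorem pos_inc : Pos X.I X.I (inc U hU).symm U X.o (sub U hU).o :=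
  (Orx52.Pos.symm (φ := inc U hU) (pos_val U hU univ) subset_rfl).mono fun p hp => ⟨⟨p, hp⟩, trivial, rfl⟩

/-- a chart of an open submanifold -/
def ncU (mem : ∀ z ∈ univ ×ˢ J, j z ∈ U) (cont : ∀ p ∈ U, ContinuousAt tm p)
    (sur : ∀ p ∈ U, tm p ∈ J → p ∈ j '' univ ×ˢ J) : Nc A (sub U hU) J :=
  have l := fun z hz => ld_comp (ld_pd (inc U hU).symm ((inc_tgt U hU).ge (mem z hz))) (ld z hz)
  ncOf hJ hn ((inc U hU).symm ∘ j) l
    (fun z hz z' hz' e => inj hz hz' ((val_inc U hU (mem z hz)).symm.trans ((congrArg Subtype.val e).trans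
      (val_inc U hU (mem z' hz')))))
    ((pos_inc U hU).comp pos (fun _ hp => ld_pd (inc U hU).symm ((inc_tgt U hU).ge hp)) ld mem) (tm ∘ Subtype.val)
    (fun z hz => (congrArg tm (val_inc U hU (mem z hz))).trans (tmk z hz))
    (continuous_iff_continuousAt.2 fun p => (cont p p.2).comp continuousAt_subtype_val) fun p hp =>
      (sur p p.2 hp).imp fun z hz => ⟨hz.1, Subtype.ext ((val_inc U hU (mem z hz.1)).trans hz.2)⟩

end nc

/-- an incoming end is shortened -/
def shI {A : O3} {X : M4} (k : Nc A X (Iio 0)) {R : ℝ} (hR : 0 ≤ R) : Nc A X (Iio 0) :=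
  have m : ∀ z : A.Y.M × ℝ, z ∈ univ ×ˢ Iio (0 : ℝ) → z.2 + -R ∈ Iio 0 := fun _ hz => add_neg_of_neg_of_nonpos hz.2 (neg_nonpos.2 hR)
  have l := fun z hz => nc_ld k (Prod.map id (· + -R) z) (m z hz)
  ncOf isOpen_Iio nonempty_Iio (k.k ∘ Prod.map id (· + -R)) (fun z hz => ld_comp (l z hz) ((Nv5.oe_sh A _).loc z))
    (fun z hz z' hz' e => (Nv5.oe_sh A _).inj (k.k.injOn ((nc_src k).ge (m z hz)) ((nc_src k).ge (m z' hz')) e))
    (k.pos.comp ((Nv5.pos_sh A _).mono (subset_univ _)) (fun _ => ld_pd k.k) (fun z _ => (Nv5.oe_sh A _).loc z)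
      fun z hz => (nc_src k).ge (m z hz)) (fun p => k.tm p + R)
    (fun z hz => by rw [comp_apply, nc_tm k (m z hz)]; exact neg_add_cancel_right _ _) (k.cont.add continuous_const)
    fun p (hp : k.tm p + R < 0) =>
      have h : k.tm p < 0 := by linarith
      ⟨((k.k.symm p).1, k.tm p + R), ⟨trivial, hp⟩, by
        rw [comp_apply, Prod.map, add_neg_cancel_right, ← nc_snd k h]; exact k.k.right_inv (k.tgt.ge h)⟩

theorem norm_rf4 (x : E4) : ‖Nv5.rf4 x‖ = ‖x‖ := (LinearIsometryEquiv.piLpCongrRight 2 fun i : Fin 4 =>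
  if i = 0 then LinearIsometryEquiv.neg ℝ else LinearIsometryEquiv.refl ℝ ℝ).norm_map x

/-- `ℝ⁴` -/
abbrev e4 : M4 :=
  { X := Mf.ofB 4 (𝓡 4) E4 finrank_euclideanSpace_fin, con := inferInstanceAs (ConnectedSpace E4), o := o4,
    ori := Nv5.ori_o4 }

/-- positive polar coordinates -/
theorem exists_pol {S : O3} (s : Sph S) (hs : Injective s.π) : ∃ P : S.Y.M × ℝ → E4, IsOE (IY S) (𝓡 4) P ∧
    Pos (IY S) (𝓡 4) P univ (Orx52.pr S.o oR) o4 ∧ (∀ z, ‖P z‖ = Real.exp (-z.2)) ∧ ∀ x ≠ 0, ∃ z, P z = x := by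
  let φ := (IsOE.mk hs s.ld).diffeo s.surj
  have h := (isOE_pol (E := E4) (n := 3)).comp (isOE_flip φ.symm)
  have n : ∀ z : S.Y.M × ℝ, ‖pol (φ.symm z.1, -z.2)‖ = Real.exp (-z.2) := fun z => norm_pol _
  have u : ∀ x : E4, x ≠ 0 → ∃ z : S.Y.M × ℝ, pol (φ.symm z.1, -z.2) = x := fun x hx =>
    ⟨(φ (dirE hx), -Real.log ‖x‖), by simpa using pol_dirE hx⟩
  have ρ := IsOE.of_diffeo Nv5.rf4.toDiffeomorph
  rcases Orx52.pos_or isPreconnected_univ (oriOn (ori_pr S.ori ori_oR) univ) (oriOn Nv5.ori_o4 univ)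
    (fun y _ => h.loc y) (mapsTo_univ _ _) with k | k
  · exact ⟨_, h, k, n, u⟩
  · refine ⟨_, ρ.comp h, (Orx52.pos_of_eq (oriOn Nv5.ori_o4 univ).neg (c := fun _ => 1) (fun _ _ => one_pos)
      fun y _ => ?_).comp k (fun y _ => ρ.loc y) (fun y _ => h.loc y) (mapsTo_univ _ _),
      fun z => (norm_rf4 _).trans (n z), fun x hx => ?_⟩
    · rw [one_smul]; exact congrFun Nv5.pm_rf4 y
    · obtain ⟨z, e⟩ := u (Nv5.rf4.symm x) (by simpa using hx)
      exact ⟨z, (congrArg Nv5.rf4 e).trans (Nv5.rf4.apply_symm_apply x)⟩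

section pun

variable {S : O3} {X : M4} {f : E4 → X.M} (hf : IsOE (𝓡 4) X.I f) {P : S.Y.M × ℝ → E4}
  (nP : ∀ z, ‖P z‖ = Real.exp (-z.2)) (sP : ∀ x ≠ 0, ∃ z, P z = x)

/-- the time of the ball -/
def tB (x : E4) : ℝ := -Real.log (max ‖x‖ (Real.exp (-4)))

variable (f) in
/-- the time of the punctured manifold -/
def tP : X.M → ℝ := extend f (fun x => max 0 (-Real.log ‖x‖)) 0

variable (f) in
/-- the time of the neck -/
def tN : X.M → ℝ := extend f (fun x => max 0 (tB x)) 0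

theorem cont_tB : Continuous tB :=
  ((continuous_norm.max continuous_const).log fun _ => ((Real.exp_pos _).trans_le (le_max_right _ _)).ne').neg

theorem tB_zero : tB 0 = 4 := by simp [tB, (Real.exp_pos _).le]

include nP in
theorem tB_P (z : S.Y.M × ℝ) : tB (P z) = min z.2 4 := by
  rw [tB, nP, ← Real.exp_monotone.map_max, Real.log_exp, max_neg_neg, neg_neg]

include hf

theorem cont_tN : Continuous (tN f) := continuous_iff_continuousAt.2 fun _ =>
  contAt_ext hf.isOpenEmbedding (isCompact_closedBall 0 1) (fun x hx => max_eq_left (neg_nonpos.2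
    (Real.log_nonneg (le_max_of_le_left (le_of_not_ge (by simpa using hx)))))) fun _ _ =>
      (continuous_const.max cont_tB).continuousAt

theorem cont_tP {p : X.M} (hp : p ≠ f 0) : ContinuousAt (tP f) p :=
  contAt_ext hf.isOpenEmbedding (isCompact_closedBall 0 1) (fun x hx => max_eq_left (neg_nonpos.2
    (Real.log_nonneg (le_of_not_ge (by simpa using hx))))) fun x e => continuousAt_const.max
      (continuous_norm.continuousAt.log (norm_ne_zero_iff.2 fun k => hp (k ▸ e.symm))).neg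

theorem tN_f (x : E4) : tN f (f x) = max 0 (tB x) := hf.inj.extend_apply _ _ _

include nP

theorem tP_P (z : S.Y.M × ℝ) : tP f (f (P z)) = max 0 z.2 := by
  rw [tP, hf.inj.extend_apply, nP, Real.log_exp, neg_neg]

theorem ne_P (z : S.Y.M × ℝ) : f (P z) ≠ f 0 := fun e =>
  (Real.exp_pos _).ne' ((nP z).symm.trans (by rw [hf.inj e, norm_zero]))

include sP in
theorem cases_P (p : X.M) : tP f p = 0 ∧ tN f p = 0 ∧ p ≠ f 0 ∨ p = f 0 ∧ tN f p = 4 ∨
    ∃ z, p = f (P z) ∧ tP f p = max 0 z.2 ∧ tN f p = max 0 (min z.2 4) := by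
  by_cases e : ∃ x, f x = p
  · obtain ⟨x, rfl⟩ := e
    by_cases h : x = 0
    · exact .inr (.inl ⟨by rw [h], by rw [tN_f hf, h, tB_zero]; norm_num⟩)
    · obtain ⟨z, rfl⟩ := sP x h
      exact .inr (.inr ⟨z, rfl, tP_P hf nP z, by rw [tN_f hf, tB_P nP]⟩)
  · exact .inl ⟨extend_apply' _ _ _ e, extend_apply' _ _ _ e, fun k => e ⟨0, k.symm⟩⟩

end pun

/-- **GEO-PUN** -/
theorem punStmt : PunStmt := fun C S s hs T n0 ⟨e, e1, e2⟩ => by
  let k : Nc C.toO3 T.X (Iio 0) := T.ki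
  obtain ⟨B, hB⟩ := (e1.hc.isCompact.image k.cont).bddBelow
  obtain ⟨y⟩ : Nonempty C.Y.M := inferInstance
  have t0 : k.tm (k.k (y, -|B| - 1)) = -|B| - 1 := nc_tm k (show -|B| - 1 < 0 by linarith [abs_nonneg B])
  have hR : 0 ≤ |B| + 2 := by positivity
  obtain ⟨f, hf, pf, uf⟩ := Nv5.exists_box T.X (x := k.k (y, -|B| - 1)) (U := k.tm ⁻¹' Ioo (-(|B| + 2)) (-|B|))
    (k.cont.continuousAt.preimage_mem_nhds (by rw [t0]; exact Ioo_mem_nhds (by linarith) (by linarith)))
  obtain ⟨P, hP, pP, nP, sP⟩ := exists_pol s hs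
  have cs := cases_P hf nP sP
  let U : Opens T.M := ⟨{f 0}ᶜ, isOpen_compl_singleton⟩
  have hU : IsConnected (U : Set T.M) := ⟨⟨_, ne_P hf nP (Classical.arbitrary _, 0)⟩,
    pc_compl hf.isOpen_range ⟨0, rfl⟩ (by
      rw [← image_univ, ← image_singleton, ← image_sdiff hf.inj, ← compl_eq_univ_sdiff]
      exact (isConnected_compl_singleton_of_one_lt_rank (by simp [← Module.finrank_eq_rank]) 0).isPreconnected.image _
        hf.continuous.continuousOn)⟩
  have j := hf.comp hP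
  have pj := pf.comp pP (fun y _ => hf.loc y) (fun y _ => hP.loc y) (mapsTo_univ _ _)
  let k' := shI k hR
  have m : ∀ z ∈ univ ×ˢ Iio (0 : ℝ), k'.k z ∈ U := fun z hz (e : k'.k z = f 0) => by
    have : k.tm (k'.k z) + (|B| + 2) = z.2 := nc_tm k' hz.2
    linarith [(uf 0).1, e ▸ this, show z.2 < 0 from hz.2]
  let T₁ : Pm (some C.toO3) (some S.toO3) none :=
    { X := sub U hU
      ki := ncU isOpen_Iio nonempty_Iio k'.k (fun z hz => nc_ld k' z hz.2) (k'.src ▸ k'.k.injOn) (k'.src ▸ k'.pos)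
        k'.tm (fun z hz => nc_tm k' hz.2) U hU m (fun _ _ => k'.cont.continuousAt) fun p _ hp =>
          univ_prod ▸ (nc_img k' subset_rfl).ge hp
      ko := ncU isOpen_Ioi nonempty_Ioi (f ∘ P) (fun z _ => j.loc z) j.inj.injOn (pj.mono (subset_univ _)) (tP f)
        (fun z hz => (tP_P hf nP z).trans (max_eq_right (le_of_lt hz.2))) U hU (fun z _ => ne_P hf nP z)
        (fun _ => cont_tP hf) fun p hp (h : 0 < tP f p) => by
          rcases cs p with c | c | ⟨z, rfl, c, -⟩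
          · exact (h.ne' c.1).elim
          · exact (hp c.1).elim
          · exact ⟨z, ⟨trivial, by simpa [c] using h⟩, rfl⟩
      k3 := ()
      io := fun p (h : k.tm p.1 + (|B| + 2) < 0) => show tP f p.1 ≤ 0 from
        (extend_apply' _ _ _ fun ⟨x, e⟩ => by linarith [(uf x).1, e ▸ h]).le
      i3 := fun _ _ => le_rfl
      o3 := fun _ _ => le_rfl
      cpt := fun R => ?_
      nb := 0
      bx := Fin.elim0
      src := fun j => j.elim0
      core := fun j => j.elim0 }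
  let T₂ : Pm (some S.toO3) none none := En2.pm (X := e4)
    { ki := ncOf isOpen_Iio nonempty_Iio (P ∘ Prod.map id (· + 4)) (fun z _ => (hP.comp (Nv5.oe_sh _ 4)).loc z)
        (hP.comp (Nv5.oe_sh _ 4)).inj.injOn ((pP.comp (Nv5.pos_sh _ 4) (fun y _ => hP.loc y)
          (fun y _ => (Nv5.oe_sh _ 4).loc y) (mapsTo_univ _ _)).mono (subset_univ _)) (fun x => tB x - 4)
        (fun z hz => by
          rw [comp_apply, tB_P nP, min_eq_left (by simpa using le_of_lt hz.2)]; exact add_sub_cancel_right _ _)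
        (cont_tB.sub continuous_const) fun x (h : tB x - 4 < 0) => by
          obtain ⟨z, rfl⟩ := sP x fun e => by simp [e, tB_zero] at h
          exact ⟨(z.1, z.2 - 4), ⟨trivial, by simpa [tB_P nP] using h⟩, by simp [Prod.map]⟩
      ko := ()
      io := fun _ _ => le_rfl
      cpt := fun R => (isCompact_closedBall 0 (Real.exp R)).of_isClosed_subset
        ((isClosed_le continuous_const (cont_tB.sub continuous_const)).inter
          (isClosed_const (p := (0 : ℝ) ≤ R ∧ (0 : ℝ) ≤ R))) fun (x : E4) hx => by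
          have h : -R ≤ tB x - 4 := hx.1
          by_cases e : x = 0
          · simp [e, (Real.exp_pos _).le]
          · obtain ⟨z, rfl⟩ := sP x e
            rw [mem_closedBall_zero_iff, nP, Real.exp_le_exp]
            linarith [tB_P nP z, min_le_left z.2 4] }
  let T' : Pm (some C.toO3) none none := En2.pm (X := T.X)
    { ki := k', ko := (), io := fun _ _ => le_rfl
      cpt := fun R => (T.cpt (|R| + (|B| + 2))).of_isClosed_subset
        ((isClosed_le continuous_const k'.cont).inter (isClosed_const (p := (0 : ℝ) ≤ R ∧ (0 : ℝ) ≤ R)))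
        fun p ⟨(h : -R ≤ k.tm p + (|B| + 2)), _⟩ => ⟨show _ ≤ k.tm p by linarith [le_abs_self R],
          show (0 : ℝ) ≤ _ by positivity, show (0 : ℝ) ≤ _ by positivity⟩ }
  have o₁ : IsOpen {p : U | tP f p < 4} := isOpen_Iio.preimage (Nc.cont T₁.ko)
  have o₂ : IsOpen {x : E4 | -4 < tB x - 4} := isOpen_Ioi.preimage (Nc.cont T₂.ki)
  have z0 : S.Y.M × ℝ := Classical.arbitrary _
  have se : tsupport e ⊆ (inc U hU).symm.source := fun p hp => (inc_tgt U hU).ge fun (c : p = f 0) => by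
    linarith [hB ⟨p, hp, rfl⟩, c ▸ (uf 0).2, neg_abs_le B]
  have e3 : Cs T.X.I 2 (tsupport e) e := ⟨e1.cl, e1.hc, subset_rfl⟩
  refine ⟨T₁, T₂, T',
    { n := ncOf isOpen_Ioo (nonempty_Ioo.2 four_pos) (f ∘ P) (fun z _ => j.loc z) j.inj.injOn
        (pj.mono (subset_univ _)) (tN f) (fun z hz => by
          rw [comp_apply, tN_f hf, tB_P nP, min_eq_left hz.2.2.le, max_eq_right hz.2.1.le]) (cont_tN hf)
        fun p h => ?_
      l := pdOn (I := T.X.I) (J := T.X.I) (M := U) o₁ ⟨⟨_, ne_P hf nP (z0.1, 0)⟩,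
        (tP_P hf nP _).trans_lt (by simp)⟩ (fun y _ => (isOE_val U).loc y) Subtype.val_injective.injOn
      r := pdOn o₂ ⟨0, show -4 < tB 0 - 4 by simp [tB_zero]⟩ (fun y _ => hf.loc y) hf.inj.injOn
      ls := rfl
      lt := Set.ext fun p => show p ∈ Subtype.val '' {p : U | tP f p < 4} ↔ tN f p < 4 from ?_
      rs := rfl
      rt := Set.ext fun p => show p ∈ f '' {x : E4 | -4 < tB x - 4} ↔ 0 < tN f p from ?_
      pl := pos_val U hU _
      pr := pf.mono (subset_univ _)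
      ol := fun y t _ => val_inc U hU (ne_P hf nP (y, t))
      or := fun y t _ => congrArg (fun t => f (P (y, t))) (sub_add_cancel t 4)
      ki := fun y t ht _ => val_inc U hU (m (y, t) ⟨trivial, ht⟩)
      ko := trivial
      e := Equiv.sumEmpty _ _
      b₁ := fun j => j.elim0
      b₂ := fun j => j.elim0 },
    ⟨⟨.refl _ _ _, Orx52.pos_id.2 (oriOn T.X.ori _).same⟩, ⟨|B| + 2, .of_forall fun t y =>
      congrArg (fun t => k.k (y, t)) (add_neg_cancel_right t _).symm⟩, trivial, n0, fun j => (j.cast n0).elim0⟩,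
    psh (inc U hU).symm e, (e3.psh _ se).mono (subset_univ _), e2.trans_eq ?_⟩
  · rcases cs p with c | c | ⟨z, rfl, -, c⟩
    · exact (h.1.ne' c.2.1).elim
    · exact (h.2.ne c.2).elim
    · exact ⟨z, ⟨trivial, by simpa [c, four_pos] using h⟩, rfl⟩
  · rcases cs p with c | c | ⟨z, rfl, c, c'⟩
    · exact iff_of_true ⟨⟨p, c.2.2⟩, c.1.trans_lt four_pos, rfl⟩ (c.2.1.trans_lt four_pos)
    · exact iff_of_false (fun ⟨q, _, e⟩ => q.2 (e.trans c.1)) c.2.not_lt
    · refine ⟨?_, fun h => ⟨⟨_, ne_P hf nP z⟩, by simpa [c, c'] using h, rfl⟩⟩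
      rintro ⟨q, h, e⟩
      simpa [e, c, c'] using h
  · refine ⟨?_, fun h => ?_⟩
    · rintro ⟨x, h, rfl⟩
      simpa [tN_f hf] using h
    · by_contra e
      refine h.ne' (of_not_not fun e' => e' (extend_apply' _ _ _ ?_))
      rintro ⟨x, rfl⟩
      exact e ⟨x, by simpa [tN_f hf] using h, rfl⟩
  · exact ((e3.ip_psh _ se (sub U hU).ori T.X.ori (Int54.SameOn.symm ((pos_inc U hU).mono
      (se.trans (inc_tgt U hU).le))) _).trans (e3.ip_congr fun p hp => Dr59.pm_psh _ (se hp) _)).symm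
  · refine (IsInducing.subtypeVal.isCompact_preimage' ((T.cpt (|R| + (|B| + 2))).diff
      (hf.isOpen_image (isOpen_ball (x := 0) (ε := Real.exp (-R))))) fun p hp => ⟨⟨p, fun (c : p = f 0) =>
        hp.2 ⟨0, mem_ball_self (Real.exp_pos _), c.symm⟩⟩, rfl⟩).of_isClosed_subset ?_ ?_
    · exact (isClosed_le continuous_const (Nc.cont _)).inter ((isClosed_le (Nc.cont _) continuous_const).inter
        (isClosed_const (p := (0 : ℝ) ≤ R)))
    · rintro p ⟨(h : -R ≤ k.tm p.1 + (|B| + 2)), (h' : tP f p.1 ≤ R), -⟩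
      refine ⟨⟨show _ ≤ k.tm p.1 by linarith [le_abs_self R], show (0 : ℝ) ≤ _ by positivity,
        show (0 : ℝ) ≤ _ by positivity⟩, fun ⟨x, c, e⟩ => ?_⟩
      obtain ⟨z, rfl⟩ := sP x fun c => p.2 (c ▸ e.symm)
      rw [mem_ball_zero_iff, nP, Real.exp_lt_exp] at c
      linarith [e ▸ tP_P hf nP z, le_max_right 0 z.2]

end Crest.Agent.X212.Mv17
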