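import Crest.Agent.X212.Mv17.Thm
import Crest.Agent.X212.Sm25.Dsc

/-!
# X212 / Mv17, part Rel (helper17): `Pen22.RelStmt`

* `conn_ex`, `ex_clutch` : the curvature of a line glued from two frames;  `gen_r3` : the units of `S² × S¹`.
-/

set_option autoImplicit false
set_option linter.unusedSectionVars false

open Set Filter Topology Function
open scoped ContDiff Manifold
open Crest.Agent.R208.F (Ext)
open Crest.Agent.X212.Bor5.T Crest.Agent.X212.Geo28 Crest.Agent.X212.Dr59 Crest.Agent.X212.Nvg56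
open Crest.Agent.X212.Pen22 (thm Stp CH)
open Crest.Agent.X212.Line51 (ang CSm Ln Uni th)
open Crest.Agent.X212.Lab56 (LOn Dat Cls mk_eq_iff)
open Crest.Agent.X212.Rod53 (ld_pd)

noncomputable section

namespace Crest.Agent.X212.Mv17

section gen

variable {E : Type} [NormedAddCommGroup E] [NormedSpace ℝ E] [FiniteDimensional ℝ E]
  {H : Type} [TopologicalSpace H] {I : ModelWithCorners ℝ E H} [I.Boundaryless] {M : Type} [TopologicalSpace M]
  [ChartedSpace H M] [IsManifold I ∞ M] {U V : Set M} {k : ℕ} {a p q e : M → Ext E} {χ : M → ℝ}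

theorem conn_ex (hU : IsOpen U) (hV : IsOpen V) (h : Cut I U V χ) (hp : Sm I U p) (hq : Sm I V q)
    (dp : ∀ x ∈ U, dM I p x = a x) (dq : ∀ x ∈ V, dM I q x = a x) (he : Cl I k (U ∩ V) e)
    (hx : Ex I (U ∩ V) (e - (q - p))) : Ex I (U ∪ V) (a - df I χ * e) := by
  have e1 := (h.czU.sm_smul he.sm).neg
  have e2 := h.czV.sm_smul he.sm
  refine mv_ex (k := k) hU hV h (hp.sub e1) (hq.sub e2) (fun x hx => ?_) (fun x hx => ?_) .zero .zero
    (hx.congr fun x _ => ?_)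
  · rw [dM_sub ne0 (hp x hx) (e1 x hx), dp x hx, h.d_left he hx]
    rfl
  · rw [dM_sub ne0 (hq x hx) (e2 x hx), dq x hx, h.d_right he hx]
    rfl
  · simp only [Pi.sub_apply, Pi.neg_apply, Pi.smul_apply', sub_smul, one_smul, Pi.zero_apply]
    abel

/-- **the curvature of a line with the transition function `G ^ m`** -/
theorem ex_clutch {n : Type} [Fintype n] [DecidableEq n] {P : M → Matrix n n ℂ} (hP : LOn I P univ) (hU : IsOpen U) (hV : IsOpen V)
    (h : Cut I U V χ) {s s' : M → Matrix n Unit ℂ} (hs : Uni I (fun _ => 1) P s U)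
    (hs' : Uni I (fun _ => 1) P s' V) {c : M → ℂ} (hc : Ut I c (U ∩ V)) (e : ∀ x ∈ U ∩ V, s' x = c x • s x)
    {G : M → Circle} (hG : ∀ x ∈ U ∩ V, CSm I G x) {m : ℤ}
    (hl : Lg I (c * ((fun x => (G x : ℂ)) ^ m)⁻¹) (U ∩ V)) :
    Ex I (U ∪ V) (Ln.F I ⟨P, 0⟩ - (m : ℝ) • (df I χ * ang I G)) := by
  have o := hU.inter hV
  obtain ⟨C, hC⟩ := hc.circ o
  have f : Ln.Fr I ⟨P, 0⟩ s (th I s + 0) U := ⟨hs, fun _ _ => rfl⟩
  have f' : Ln.Fr I ⟨P, 0⟩ s' (th I s' + 0) V := ⟨hs', fun _ _ => rfl⟩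
  have x := Lg.ex (g := C * (G ^ m)⁻¹) o (hl.congr fun x hx => by simp [(hC x hx).2])
  rw [← mul_smul_comm]
  refine conn_ex hU hV h (f.sm_fr hU Sm.zero) (f'.sm_fr hV Sm.zero) (fun x hx => (f.F_fr hU Sm.zero hx).symm)
    (fun x hx => (f'.F_fr hV Sm.zero hx).symm) ((Line51.cl_ang hG).smul m) (x.neg.congr fun x hx => ?_)
  have k := ((f.mono inter_subset_left).mul_sc fun x hx => (hC x hx).1).par x hx
  rw [← Line51.th_congr (u := s') (eventually_of_mem (o.mem_nhds hx) fun y hy => by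
    rw [e y hy, Lab56.mul_sc, (hC y hy).2])] at k
  rw [Pi.neg_apply, Line51.ang_mul (hC x hx).1 ((hG x hx).zpow m).inv, Line51.ang_inv ((hG x hx).zpow m),
    Line51.ang_zpow (hG x hx), Pi.sub_apply, Pi.sub_apply, show (th I s' + 0) x = _ from k, Pi.smul_apply]
  show _ - (_ + ang I C x - _) = _
  abel

end gen

theorem gen_r3 (R : R3) : Gen R.Y.I (fun y => (uR R y : ℂ)) univ :=
  gen_of_loop isOpen_univ (bd_r3 R (bd_zero.2 (hz_sphere (k := 0) (by simp))) (bd0 isOpen_univ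
      (Subtype.preconnectedSpace (isPreconnected_sphere (by rw [← Module.finrank_eq_rank]; simp) _ _)).1))
    (fun y _ => ⟨(Line51.contMDiff_coe _).comp y (sm_uR R y), Circle.norm_coe _⟩)
    (γ := fun z => R.φ.symm ((R.φ (Classical.arbitrary _)).1, z))
    (R.φ.symm.contMDiff.comp (contMDiff_const.prodMk contMDiff_id)) (fun _ => trivial) fun z => by
      simp only [uR, R.φ.apply_symm_apply]

section gl

variable {R : R3} {X₁ X₂ X : M4} {k₁ : Nc R.toO3 X₁ (Ioi 0)} {k₂ : Nc R.toO3 X₂ (Iio 0)} (g : Gl3 k₁ k₂ X)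

theorem tm_rs {x : X.M} (hx : x ∈ g.r.target ∩ g.l.target) : k₂.tm (g.r.symm x) ∈ Ioo (-4 : ℝ) 0 :=
  let ⟨p, hp, e⟩ := (g3_img g).ge ⟨hx.2, hx.1⟩
  by rw [← e, show g.r.symm (g.r p) = p from g.r.left_inv (g.rs.ge hp.1)]; exact hp

theorem mp_j : Mp X.I (IY R.toO3) (g.r.target ∩ g.l.target) (univ ×ˢ Ioo (-4) 0) (k₂.k.symm ∘ g.r.symm) :=
  ⟨fun _ hx => (ld_pd k₂.k.symm (k₂.tgt.ge (tm_rs g hx).2)).contMDiffAt.comp _ (ld_pd g.r.symm hx.1).contMDiffAt,
    fun _ hx => ⟨trivial, mem_of_eq_of_mem (nc_snd k₂ (tm_rs g hx).2) (tm_rs g hx)⟩⟩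

theorem gen_g3 : Gen X.I (fun x => (uR R (k₂.k.symm (g.r.symm x)).1 : ℂ)) (g.r.target ∩ g.l.target) :=
  have m := nc_mp k₂ (Ioo_subset_Iio_self (a := -4))
  ((gen_r3 R).cyl isOpen_Ioo ordConnected_Ioo).comp (f := g.r ∘ k₂.k)
    (fun z hz => (ld_pd g.r (g.rs.ge (m.maps hz).1)).contMDiffAt.comp _ (m.sm z hz))
    (fun _ hz => ((g3_img g).le ⟨_, m.maps hz, rfl⟩).symm) (mp_j g).sm (mp_j g).maps fun _ hx =>
      (congrArg g.r (k₂.k.right_inv (k₂.tgt.ge (tm_rs g hx).2))).trans (g.r.right_inv hx.1)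

variable {χ : ℝ → ℝ} (hχ : Stp χ)
include hχ

omit hχ in
theorem ev_j {x : X.M} (hx : x ∈ g.r.target ∩ g.l.target) :
    (fun x => χ (g.n.tm x - 4)) =ᶠ[𝓝 x] (fun p => χ p.2) ∘ k₂.k.symm ∘ g.r.symm :=
  eventually_of_mem ((g.r.open_target.inter g.l.open_target).mem_nhds hx) fun y hy => congrArg χ
    ((sub_eq_of_eq_add ((congrArg g.n.tm (g.r.right_inv hy.1)).symm.trans (Pen22.tm_r g (g.r.map_target hy.1)
      (.inl (tm_rs g hy).2)))).trans (nc_snd k₂ (tm_rs g hy).2).symm)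

theorem cut_g3 : Cut X.I g.r.target g.l.target fun x => χ (g.n.tm x - 4) := by
  have z : ∀ x ∉ g.r.target, (fun x => χ (g.n.tm x - 4)) =ᶠ[𝓝 x] 0 := fun x hx =>
    (g.n.cont.continuousAt.eventually_lt continuousAt_const
      ((not_lt.1 (mt (Pen22.mem_rt g).2 hx)).trans_lt one_pos)).mono fun y hy => hχ.2.1 _ (by linarith)
  have o : ∀ x ∉ g.l.target, (fun x => χ (g.n.tm x - 4)) =ᶠ[𝓝 x] 1 := fun x hx =>
    (continuousAt_const.eventually_lt g.n.cont.continuousAt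
      ((by norm_num : (3 : ℝ) < 4).trans_le (not_lt.1 (mt (Pen22.mem_lt g).2 hx)))).mono
        fun y hy => hχ.2.2 _ (by linarith)
  refine ⟨fun x _ => ?_, fun x _ => z x, fun x _ => o x⟩
  by_cases h : x ∈ g.r.target
  · by_cases h' : x ∈ g.l.target
    · exact ((hχ.1.contMDiff _).comp x ((mp_j g).sm x ⟨h, h'⟩).snd).congr_of_eventuallyEq (ev_j g ⟨h, h'⟩)
    · exact contMDiffAt_const.congr_of_eventuallyEq (o x h')
  · exact contMDiffAt_const.congr_of_eventuallyEq (z x h)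

theorem psh_thm : psh g.r (thm R k₂ χ) =
    df X.I (fun x => χ (g.n.tm x - 4)) * ang X.I fun x => uR R (k₂.k.symm (g.r.symm x)).1 := funext fun x => by
  by_cases h : x ∈ g.r.target ∩ g.l.target
  · have t := k₂.tgt.ge (tm_rs g h).2
    have d := ((mp_j g).sm x h).mdifferentiableAt ne0
    rw [psh, indicator_of_mem h.1, thm, psh, pm_congr_right (indicator_of_mem t _),
      pm_comp ((ld_pd k₂.k.symm t).mdifferentiableAt ne0) ((ld_pd g.r.symm h.1).mdifferentiableAt ne0), pm_mul,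
      Pi.mul_apply, Pi.mul_apply, Weil93.df_congr (ev_j g h)]
    exact congrArg₂ _ (pm_df d (((hχ.1.contMDiff _).comp _ contMDiffAt_snd).mdifferentiableAt ne0))
      (Line51.pm_ang ((sm_uR R _).comp _ contMDiffAt_fst) d)
  · rw [((cut_g3 g hχ).cf.df_mul_zero ((union_comm _ _ ▸ g3_cov g).ge trivial) h _).self_of_nhds]
    refine psh_eq_zero g.r (fun _ _ => (thmStmt R X₂ k₂ χ hχ).1.eq_zero) fun k => h (And.symm ((g3_img g).le ?_))
    exact image_mono (preimage_mono (Icc_subset_Ioo (by norm_num) (by norm_num))) k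

/-- **classes with the same restrictions differ by a multiple of the sphere** -/
theorem tor_g3 {d d' : X.L} {d₁ : X₁.L} {d₂ : X₂.L} (a : g.Rl d d₁) (b : g.Rr d d₂) (a' : g.Rl d' d₁)
    (b' : g.Rr d' d₂) : ∃ m : ℤ, (m = 0 → d = d') ∧ ∀ c c', Cur d c → Cur d' c' →
      Ex X.I univ (c' - (c + (2 * m : ℝ) • psh g.r (thm R k₂ χ))) := by
  obtain ⟨D⟩ := d
  obtain ⟨D'⟩ := d'
  obtain ⟨u, i⟩ := (mk_eq_iff g.l.open_target).1 (res_of_pb g.l a a')
  obtain ⟨w, j⟩ := (mk_eq_iff g.r.open_target).1 (res_of_pb g.r b b')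
  have cv := union_comm _ _ ▸ g3_cov g
  obtain ⟨c, hc, e⟩ := ratio (D.ok.mono (subset_univ _)) (D'.ok.mono (subset_univ _))
    (j.mono (inter_subset_left (t := g.l.target))) (i.mono inter_subset_right)
  obtain ⟨m, hm⟩ := (gen_g3 g).2 c hc
  refine ⟨m, fun h => Quot.sound ?_, fun c c' k k' => ?_⟩
  · rw [h, zpow_zero, inv_one, mul_one, inter_comm] at hm
    exact (eqv_of_sq g.l.open_target g.r.open_target i j (fun x hx => e x hx.symm)
      (hm.sq g.l.open_target g.r.open_target)).mono (g3_cov g).ge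
  have x := cv ▸ ex_clutch (D.ok.hl D'.ok) g.r.open_target g.l.open_target (cut_g3 g hχ)
    (j.col ((D.ok.tp D'.ok.fr).mono (subset_univ _)) (D'.ok.m.mono (subset_univ _)))
    (i.col ((D.ok.tp D'.ok.fr).mono (subset_univ _)) (D'.ok.m.mono (subset_univ _))) hc
    (fun x hx => by ext; simp [Lab56.col, Lab56.vec, e x hx, mul_left_comm])
    (fun x hx => (sm_uR R _).comp x ((mp_j g).sm x hx).fst) hm
  have y := cur_pb isOpen_univ Rfl19.pb_id ⟨D, rfl, _, D.ok.det.on, rfl⟩ k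
  have y' := cur_pb isOpen_univ Rfl19.pb_id ⟨D', rfl, _, D'.ok.det.on, rfl⟩ k'
  rw [pm_id] at y y'
  refine (((y'.add (Sm25.ex_hl isOpen_univ D.ok D'.ok D.ok.det.on D'.ok.det.on)).sub y).add
    (x.smul 2)).congr fun p _ => ?_
  rw [psh_thm g hχ]
  simp only [Pi.sub_apply, Pi.add_apply, Pi.smul_apply, smul_sub, mul_smul]
  abel

end gl

/-- **PEN-REL** -/
theorem relStmt : Pen22.RelStmt := fun G H => by
  obtain ⟨χ, ε, hχ, hε, sph⟩ := H.sph
  let k : Nc G.R.toO3 G.N.X (Iio 0) := G.N.ki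
  obtain ⟨t1, t2⟩ := thmStmt G.R G.N.X k χ hχ
  have e0 : ε * (2 * Real.pi) ≠ 0 := mul_ne_zero (by rcases hε with h | h <;> simp [h]) Real.two_pi_pos.ne'
  refine ⟨fun x c hc h => ?_, fun g d d' d₁ d₂ a b a' b' => ?_⟩
  · obtain ⟨f, f1, f2⟩ := G.tor
    have o := isOpen_Iio.preimage (continuous_snd (X := G.R.Y.M)) (t := Iio (0 : ℝ))
    have x := ((cur_pb o ((nc_cl k).1 h) f1 hc).add (f2.mono (subset_univ _))).congr fun _ _ =>
      (sub_add_cancel _ _).symm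
    exact (mul_eq_zero.1 ((sph c ((cur_cl hc).mono (subset_univ _))).symm.trans
      ((t1.mono (preimage_mono fun t ht => ht.2.trans_lt (by norm_num))).ip_ex G.N.X.ori
        (nc_img k subset_rfl ▸ ex_pd k.k o (nc_src k).ge x)))).resolve_left e0
  obtain ⟨m, h1, h2⟩ := tor_g3 g hχ a b a' b'
  obtain ⟨n, hn⟩ : ∃ n : ℤ, (n : ℝ) = ε * m := hε.elim (fun h => ⟨m, by simp [h]⟩) fun h => ⟨-m, by simp [h]⟩
  refine ⟨n, fun h => h1 (by rcases hε with e | e <;> simpa [h, e] using hn.symm), fun c c' y p p' hy => ?_⟩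
  have s : k.tm ⁻¹' Icc (-3) (-1) ⊆ g.r.source := fun p hp => g.rs.ge (lt_of_lt_of_le (by norm_num) hp.1)
  have t := (t1.psh g.r s).cl
  have w := fun b => Pen22.ip_pd g.r g.pr (H.zr b) (fun p hp => g.rs.ge (lt_of_lt_of_le (by norm_num) hp.1)) y
  have y' := hy.cl.pm (Pen22.mp_pd g.r)
  have v := (ip_comm t.dg y).trans ((Pen22.ip_pd g.r g.pr t1 s y).trans (sph _ (g.rs ▸ y' :)))
  refine (hy.ip_coh (M4.ori _) (cur_cl p').sm ((cur_cl p).add (t.smul _)).sm (h2 c c' p p')).trans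
    ((hy.ip_add (M4.ori _) (cur_cl p).sm (t.smul _).sm).trans (congrArg _ ?_))
  rw [ip_smul, v, w, w, hn]
  ring

end Crest.Agent.X212.Mv17
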